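import Vale.Agent.P248.NS.Defs

/-! P248/NS, block T2: scaling and positivity of the Laplace transform of a cone. -/

open MeasureTheory Set Matrix Filter Topology Metric
open scoped Pointwise

namespace Vale.Agent.P248.NS.T2a

variable {N : ℕ} {C : Set (Fin N → ℝ)}

lemma smul_cone (hC : CC C) {s : ℝ} (hs : 0 < s) : s • C = C := by
  ext z
  constructor
  · rintro ⟨w, hw, rfl⟩
    exact hC.cone w hw s hs.le
  · intro hz
    refine ⟨s⁻¹ • z, hC.cone z hz _ (by positivity), ?_⟩
    simp only [smul_smul]
    rw [mul_inv_cancel₀ hs.ne', one_smul]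

lemma continuous_exp_dot (y : Fin N → ℝ) :
    Continuous fun z : Fin N → ℝ => Real.exp (-(y ⬝ᵥ z)) := by
  unfold dotProduct
  fun_prop

lemma integrableOn_exp (hC : CC C) {y : Fin N → ℝ} (hy : Pos C y) :
    IntegrableOn (fun z => Real.exp (-(y ⬝ᵥ z))) C := by
  obtain ⟨a, ha, h⟩ := hy
  have h1 : Integrable (fun z : Fin N → ℝ => Real.exp (-(a * ‖z‖))) := by
    have := Vale.Agent.P254.R304.integrable_poly_exp N ha 0
    simpa using this
  refine Integrable.mono' h1.integrableOn
    (continuous_exp_dot y).aestronglyMeasurable ?_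
  filter_upwards [ae_restrict_mem hC.closed.measurableSet] with z hz
  rw [Real.norm_of_nonneg (Real.exp_pos _).le]
  exact Real.exp_le_exp.2 (neg_le_neg (h z hz))

lemma Z_pos (hC : CC C) {y : Fin N → ℝ} (hy : Pos C y) : 0 < Z C y := by
  have h0 : (volume C) ≠ 0 := by
    have h1 : 0 < volume (interior C) := isOpen_interior.measure_pos _ hC.int
    exact (h1.trans_le (measure_mono interior_subset)).ne'
  have : NeZero (volume.restrict C) := ⟨by rwa [Ne, Measure.restrict_eq_zero]⟩
  exact integral_exp_pos (μ := volume.restrict C) (f := fun z => -(y ⬝ᵥ z)) (integrableOn_exp hC hy)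

theorem stmtScale : StmtScale := by
  intro N C hC y hy
  refine ⟨Z_pos hC hy, fun s hs => ?_⟩
  have h := Measure.setIntegral_comp_smul_of_pos (volume : Measure (Fin N → ℝ))
    (fun z => Real.exp (-(y ⬝ᵥ z))) C hs
  rw [smul_cone hC hs, Module.finrank_fin_fun, smul_eq_mul] at h
  unfold Z
  rw [← h]
  refine integral_congr_ae (Eventually.of_forall fun z => ?_)
  simp only [smul_dotProduct, dotProduct_smul]

end Vale.Agent.P248.NS.T2a
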