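import Vale.Agent.P248.NS.Defs

/-! # P248/NS, block T4: the crude lower bound (helper187). -/

open MeasureTheory Set Matrix Filter Topology

namespace Vale.Agent.P248.NS.T4

variable {N : ℕ}

theorem cont_dot (y : Fin N → ℝ) : Continuous fun z : Fin N → ℝ => y ⬝ᵥ z := by
  unfold dotProduct
  fun_prop

theorem intOn_exp {S : Set (Fin N → ℝ)} (hS : MeasurableSet S) {y : Fin N → ℝ}
    (hy : Pos S y) : IntegrableOn (fun z => Real.exp (-(y ⬝ᵥ z))) S := by
  obtain ⟨a, ha, h⟩ := hy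
  have h1 : IntegrableOn (fun x : Fin N → ℝ => (1 + ‖x‖) ^ 0 * Real.exp (-(a * ‖x‖))) S :=
    (Vale.Agent.P254.R304.integrable_poly_exp N ha 0).integrableOn
  have hc : Continuous fun z : Fin N → ℝ => Real.exp (-(y ⬝ᵥ z)) :=
    Real.continuous_exp.comp (cont_dot y).neg
  refine Integrable.mono' h1 hc.aestronglyMeasurable ?_
  refine (ae_restrict_iff' hS).2 (Eventually.of_forall fun z hz => ?_)
  rw [Real.norm_eq_abs, abs_of_pos (Real.exp_pos _), pow_zero, one_mul]
  exact Real.exp_le_exp.2 (neg_le_neg (h z hz))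

theorem Z_ge {S : Set (Fin N → ℝ)} (hS : MeasurableSet S) {y : Fin N → ℝ} (hy : Pos S y)
    {M : Matrix (Fin N) (Fin N) ℝ} {b : ℝ} (hb : 0 ≤ b)
    (hmem : ∀ l : Fin N → ℝ, (∀ i, 0 ≤ l i) → (∀ i, l i ≤ b) →
      M *ᵥ l ∈ S ∧ y ⬝ᵥ (M *ᵥ l) ≤ 1) :
    Real.exp (-1) * (|M.det| * b ^ N) ≤ Z S y := by
  have hTc : IsCompact ((Matrix.toLin' M) '' (Icc (0 : Fin N → ℝ) (fun _ => b))) :=
    isCompact_Icc.image (LinearMap.continuous_of_finiteDimensional _)
  have hvol : volume ((Matrix.toLin' M) '' (Icc (0 : Fin N → ℝ) (fun _ => b)))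
      = ENNReal.ofReal (|M.det| * b ^ N) := by
    rw [Measure.addHaar_image_linearMap, LinearMap.det_toLin', Real.volume_Icc_pi,
      ENNReal.ofReal_mul (abs_nonneg _), ENNReal.ofReal_pow hb]
    simp
  have hpt : ∀ z ∈ (Matrix.toLin' M) '' (Icc (0 : Fin N → ℝ) (fun _ => b)),
      z ∈ S ∧ y ⬝ᵥ z ≤ 1 := by
    rintro z ⟨l, hl, rfl⟩
    rw [Matrix.toLin'_apply]
    exact hmem l (fun i => hl.1 i) (fun i => hl.2 i)
  have hint := intOn_exp hS hy
  have hreal : volume.real ((Matrix.toLin' M) '' (Icc (0 : Fin N → ℝ) (fun _ => b)))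
      = |M.det| * b ^ N := by
    rw [measureReal_def, hvol, ENNReal.toReal_ofReal (by positivity)]
  have h1 := setIntegral_ge_of_const_le (c := Real.exp (-1)) hTc.measurableSet
    hTc.measure_lt_top.ne
    (fun z hz => Real.exp_le_exp.2 (neg_le_neg (hpt z hz).2))
    (hint.mono_set fun z hz => (hpt z hz).1)
  rw [hreal, smul_eq_mul] at h1
  have h2 : ∫ z in (Matrix.toLin' M) '' (Icc (0 : Fin N → ℝ) (fun _ => b)),
      Real.exp (-(y ⬝ᵥ z)) ≤ Z S y :=
    setIntegral_mono_set hint (Eventually.of_forall fun z => (Real.exp_pos _).le)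
      (Eventually.of_forall fun z hz => (hpt z hz).1)
  linarith

theorem closed_dual (C : Set (Fin N → ℝ)) : IsClosed (dual C) := by
  have : dual C = ⋂ z ∈ C, {w : Fin N → ℝ | 0 ≤ w ⬝ᵥ z} := by
    ext w
    simp [dual]
  rw [this]
  refine isClosed_biInter fun z _ => ?_
  refine isClosed_le continuous_const ?_
  have : (fun w : Fin N → ℝ => w ⬝ᵥ z) = fun w => z ⬝ᵥ w := by
    ext w
    exact dotProduct_comm _ _
  rw [this]
  exact cont_dot z

theorem add_mem {C : Set (Fin N → ℝ)} (hC : CC C) {u v : Fin N → ℝ} (hu : u ∈ C) (hv : v ∈ C) :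
    u + v ∈ C := by
  have h1 : (1 / 2 : ℝ) • u + (1 / 2 : ℝ) • v ∈ C :=
    hC.conv hu hv (by norm_num) (by norm_num) (by norm_num)
  have h2 := hC.cone _ h1 2 (by norm_num)
  rw [smul_add, smul_smul, smul_smul] at h2
  norm_num at h2
  exact h2

theorem zero_mem {C : Set (Fin N → ℝ)} (hC : CC C) : (0 : Fin N → ℝ) ∈ C := by
  obtain ⟨z, hz⟩ := hC.int
  have := hC.cone z (interior_subset hz) 0 le_rfl
  rwa [zero_smul] at this

theorem sum_mem {C : Set (Fin N → ℝ)} (hC : CC C) {V : Matrix (Fin N) (Fin N) ℝ}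
    (hV : ∀ i, V i ∈ C) {l : Fin N → ℝ} (hl : ∀ i, 0 ≤ l i) : Vᵀ *ᵥ l ∈ C := by
  have e : Vᵀ *ᵥ l = ∑ i, l i • V i := by
    ext j
    simp [mulVec, dotProduct, Finset.sum_apply, mul_comm]
  rw [e]
  classical
  have : ∀ s : Finset (Fin N), ∑ i ∈ s, l i • V i ∈ C := by
    intro s
    induction s using Finset.induction_on with
    | empty => simpa using zero_mem hC
    | insert a s ha ih =>
      rw [Finset.sum_insert ha]
      exact add_mem hC (hC.cone _ (hV a) _ (hl a)) ih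
  exact this _

theorem dot_tr (x l : Fin N → ℝ) (W : Matrix (Fin N) (Fin N) ℝ) :
    x ⬝ᵥ (Wᵀ *ᵥ l) = ∑ i, l i * (W i ⬝ᵥ x) := by
  rw [Matrix.mulVec_transpose, dotProduct_comm, ← Matrix.dotProduct_mulVec]
  rfl

/-- a nondegenerate system in the cone -/
theorem exists_nondeg {C : Set (Fin N → ℝ)} (hC : CC C) {y : Fin N → ℝ} (_hy : Pos C y) :
    ∃ V : Matrix (Fin N) (Fin N) ℝ, V.det ≠ 0 ∧ (∀ i, V i ∈ C) ∧ ∀ i, y ⬝ᵥ V i ≤ 1 := by
  obtain ⟨z0, hz0⟩ := hC.int
  obtain ⟨r, hr, hball⟩ := Metric.isOpen_iff.1 isOpen_interior z0 hz0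
  have key : ∃ t : ℝ, 0 < t ∧ t < r ∧ 1 + z0 ⬝ᵥ (fun _ => t⁻¹) ≠ 0 := by
    have hsum : ∀ t : ℝ, z0 ⬝ᵥ (fun _ => t⁻¹) = (∑ i, z0 i) * t⁻¹ := by
      intro t
      simp [dotProduct, Finset.sum_mul]
    by_cases h : 1 + (∑ i, z0 i) * (r / 2)⁻¹ = 0
    · refine ⟨r / 4, by positivity, by linarith, ?_⟩
      rw [hsum]
      intro h2
      have e1 : (∑ i, z0 i) = -(r / 2) := by
        have hr2 : (r / 2) ≠ 0 := by positivity
        field_simp at h
        linarith
      rw [e1] at h2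
      have hr0 : r ≠ 0 := hr.ne'
      field_simp at h2
      norm_num at h2
    · exact ⟨r / 2, by positivity, by linarith, by rw [hsum]; exact h⟩
  obtain ⟨t, ht0, htr, hdet⟩ := key
  set V : Matrix (Fin N) (Fin N) ℝ :=
    t • (1 + replicateCol Unit (fun _ => t⁻¹) * replicateRow Unit z0) with hV
  have hVe : ∀ i j, V i j = (if i = j then t else 0) + z0 j := by
    intro i j
    rw [hV]
    simp only [Matrix.smul_apply, Matrix.add_apply, Matrix.mul_apply, replicateCol_apply,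
      replicateRow_apply, Matrix.one_apply, smul_eq_mul, Finset.univ_unique, Finset.sum_singleton]
    split_ifs
    · field_simp
    · field_simp
      ring
  have hVdet : V.det ≠ 0 := by
    rw [hV, Matrix.det_smul, Matrix.det_one_add_replicateCol_mul_replicateRow]
    exact mul_ne_zero (pow_ne_zero _ ht0.ne') hdet
  have hVC : ∀ i, V i ∈ C := by
    intro i
    refine interior_subset (hball ?_)
    rw [Metric.mem_ball]
    refine lt_of_le_of_lt ((dist_pi_le_iff ht0.le).2 fun j => ?_) htr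
    rw [hVe, Real.dist_eq, add_sub_cancel_right]
    split_ifs
    · rw [abs_of_pos ht0]
    · rw [abs_zero]; exact ht0.le
  -- scaling
  set s : ℝ := (1 + ∑ i, |y ⬝ᵥ V i|)⁻¹ with hs
  have hpos : 0 < 1 + ∑ i, |y ⬝ᵥ V i| := by positivity
  have hs0 : 0 < s := inv_pos.2 hpos
  refine ⟨s • V, ?_, fun i => ?_, fun i => ?_⟩
  · rw [Matrix.det_smul]
    exact mul_ne_zero (pow_ne_zero _ hs0.ne') hVdet
  · exact hC.cone _ (hVC i) s hs0.le
  · have e : y ⬝ᵥ (s • V) i = s * (y ⬝ᵥ V i) := by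
      have : (s • V) i = s • V i := rfl
      rw [this, dotProduct_smul, smul_eq_mul]
    rw [e]
    have h1 : y ⬝ᵥ V i ≤ 1 + ∑ i, |y ⬝ᵥ V i| := by
      have := Finset.single_le_sum (f := fun i => |y ⬝ᵥ V i|) (fun i _ => abs_nonneg _)
        (Finset.mem_univ i)
      have h3 := le_abs_self (y ⬝ᵥ V i)
      linarith
    rw [hs, inv_mul_le_iff₀ hpos]
    linarith

/-- a system in the truncated cone with maximal determinant -/
theorem exists_max {C : Set (Fin N → ℝ)} (hC : CC C) {y : Fin N → ℝ} (hy : Pos C y) :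
    ∃ V : Matrix (Fin N) (Fin N) ℝ, V.det ≠ 0 ∧ (∀ i, V i ∈ C) ∧ (∀ i, y ⬝ᵥ V i ≤ 1) ∧
      ∀ i, ∀ z ∈ C, y ⬝ᵥ z ≤ 1 → |(V.updateRow i z).det| ≤ |V.det| := by
  obtain ⟨V1, hd1, hC1, hy1⟩ := exists_nondeg hC hy
  obtain ⟨a, ha, hpos⟩ := hy
  set K : Set (Fin N → ℝ) := C ∩ {z | y ⬝ᵥ z ≤ 1} with hK
  have hKc : IsCompact K := by
    refine Metric.isCompact_of_isClosed_isBounded
      (hC.closed.inter (isClosed_le (cont_dot y) continuous_const)) ?_
    refine (Metric.isBounded_closedBall (x := (0 : Fin N → ℝ)) (r := a⁻¹)).subset ?_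
    intro z hz
    rw [mem_closedBall_zero_iff]
    have h1 := hpos z hz.1
    have h2 : a * ‖z‖ ≤ 1 := h1.trans hz.2
    rw [← one_div, le_div_iff₀ ha]
    linarith
  have hP : IsCompact (Set.pi univ fun _ : Fin N => K) := isCompact_univ_pi fun _ => hKc
  have hcont : Continuous fun V : Fin N → Fin N → ℝ => |(Matrix.of V).det| := by
    refine continuous_abs.comp (Continuous.matrix_det ?_)
    exact continuous_id
  obtain ⟨V, hVP, hmax⟩ := hP.exists_isMaxOn ⟨V1, fun i _ => ⟨hC1 i, hy1 i⟩⟩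
    hcont.continuousOn
  have hV1 : |V1.det| ≤ |(Matrix.of V).det| := hmax (fun i _ => ⟨hC1 i, hy1 i⟩)
  refine ⟨Matrix.of V, ?_, fun i => (hVP i (mem_univ i)).1, fun i => (hVP i (mem_univ i)).2, ?_⟩
  · intro h0
    rw [h0, abs_zero] at hV1
    exact hd1 (abs_eq_zero.1 (le_antisymm hV1 (abs_nonneg _)))
  · intro i z hz hyz
    have hmem : (fun k => (Matrix.of V).updateRow i z k) ∈ Set.pi univ fun _ : Fin N => K := by
      intro k _
      by_cases hk : k = i
      · subst hk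
        simp only [Matrix.updateRow_self]
        exact ⟨hz, hyz⟩
      · simp only [Matrix.updateRow_ne hk]
        exact hVP k (mem_univ k)
    exact hmax hmem

theorem stmtCrude : StmtCrude := by
  intro N C hN hC
  have hNr : (0 : ℝ) < N := by exact_mod_cast hN
  refine ⟨Real.exp (-1) * Real.exp (-1) * ((1 / (N : ℝ)) ^ N * (1 / (2 * (N : ℝ))) ^ N),
    by positivity, ?_⟩
  intro x y hx hy
  obtain ⟨V, hdet, hVC, hVy, hmax⟩ := exists_max hC hy
  -- coordinates
  have hcr : ∀ (z : Fin N → ℝ) (i : Fin N), ((Vᵀ)⁻¹ *ᵥ z) i = (V.updateRow i z).det / V.det := by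
    intro z i
    rw [Matrix.inv_def, Matrix.smul_mulVec, ← Matrix.cramer_eq_adjugate_mulVec, Pi.smul_apply,
      Matrix.cramer_transpose_apply, Matrix.det_transpose, Ring.inverse_eq_inv', smul_eq_mul]
    field_simp
  have hyC : ∀ z ∈ C, 0 ≤ y ⬝ᵥ z := by
    intro z hz
    obtain ⟨a, ha, h⟩ := hy
    exact le_trans (by positivity) (h z hz)
  have hl : ∀ z ∈ C, ∀ i, |((Vᵀ)⁻¹ *ᵥ z) i| ≤ y ⬝ᵥ z := by
    intro z hz i
    rw [hcr, abs_div, div_le_iff₀ (abs_pos.2 hdet)]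
    rcases (hyC z hz).eq_or_lt with h0 | h0
    · obtain ⟨a, ha, h⟩ := hy
      have h1 := h z hz
      rw [← h0] at h1
      have hz0 : z = 0 := by
        have : ‖z‖ ≤ 0 := by
          by_contra hcon
          have := mul_pos ha (not_le.1 hcon)
          linarith
        exact norm_le_zero_iff.1 this
      have e : (V.updateRow i z).det = 0 := by
        have : z = (0 : ℝ) • z := by rw [hz0, smul_zero]
        rw [this, Matrix.det_updateRow_smul, zero_mul]
      rw [e, abs_zero, ← h0, zero_mul]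
    · have hs := hC.cone z hz (y ⬝ᵥ z)⁻¹ (inv_nonneg.2 h0.le)
      have h1 := hmax i _ hs (by
        rw [dotProduct_smul, smul_eq_mul, inv_mul_cancel₀ h0.ne'])
      rw [Matrix.det_updateRow_smul, abs_mul, abs_of_pos (inv_pos.2 h0),
        inv_mul_le_iff₀ h0] at h1
      exact h1
  -- the dual system
  set E : Matrix (Fin N) (Fin N) ℝ := (Vᵀ)⁻¹ with hE
  set W : Matrix (Fin N) (Fin N) ℝ :=
    replicateCol Unit (fun _ : Fin N => (1 : ℝ)) * replicateRow Unit y + E with hW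
  have hWdot : ∀ (i : Fin N) (z : Fin N → ℝ), W i ⬝ᵥ z = y ⬝ᵥ z + (E *ᵥ z) i := by
    intro i z
    have : W i = y + E i := by
      ext j
      rw [hW]
      simp [Matrix.mul_apply]
    rw [this, add_dotProduct]
    rfl
  have hWD : ∀ i, ∀ z ∈ C, 0 ≤ W i ⬝ᵥ z := by
    intro i z hz
    rw [hWdot]
    have := (abs_le.1 (hl z hz i)).1
    linarith
  have hxD : ∀ w ∈ dual C, 0 ≤ x ⬝ᵥ w := by
    intro w hw
    obtain ⟨a, ha, h⟩ := hx
    exact le_trans (by positivity) (h w hw)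
  have hyD : y ∈ dual C := hyC
  have hWx : ∀ i, W i ⬝ᵥ x ≤ 2 * (x ⬝ᵥ y) := by
    intro i
    have hmem : y - E i ∈ dual C := by
      intro z hz
      rw [sub_dotProduct]
      have h1 := (abs_le.1 (hl z hz i)).2
      have h2 : E i ⬝ᵥ z = (E *ᵥ z) i := rfl
      rw [h2]
      linarith
    have h1 := hxD _ hmem
    rw [dotProduct_sub, dotProduct_comm x (E i)] at h1
    rw [hWdot]
    have h2 : E i ⬝ᵥ x = (E *ᵥ x) i := rfl
    rw [← h2, dotProduct_comm y x]
    linarith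
  -- positivity of the product
  have hp : 0 < x ⬝ᵥ y := by
    have hy0 : y ≠ 0 := by
      intro h0
      obtain ⟨a, ha, h⟩ := hy
      have h1 := h _ (hVC ⟨0, hN⟩)
      rw [h0, zero_dotProduct] at h1
      have hz0 : V ⟨0, hN⟩ = 0 := by
        have : ‖V ⟨0, hN⟩‖ ≤ 0 := by
          by_contra hcon
          have := mul_pos ha (not_le.1 hcon)
          linarith
        exact norm_le_zero_iff.1 this
      exact hdet (Matrix.det_eq_zero_of_row_eq_zero ⟨0, hN⟩ fun j => congrFun hz0 j)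
    obtain ⟨a, ha, h⟩ := hx
    exact lt_of_lt_of_le (mul_pos ha (norm_pos_iff.2 hy0)) (h y hyD)
  -- the two volumes
  have hZC : Real.exp (-1) * (|(Vᵀ).det| * (1 / (N : ℝ)) ^ N) ≤ Z C y := by
    refine Z_ge hC.closed.measurableSet hy (by positivity) fun l hl0 hl1 => ⟨sum_mem hC hVC hl0, ?_⟩
    rw [dot_tr]
    calc ∑ i, l i * (V i ⬝ᵥ y) ≤ ∑ _i : Fin N, 1 / (N : ℝ) := by
          refine Finset.sum_le_sum fun i _ => ?_
          rw [dotProduct_comm (V i) y]
          calc l i * (y ⬝ᵥ V i) ≤ l i * 1 := mul_le_mul_of_nonneg_left (hVy i) (hl0 i)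
            _ ≤ 1 / (N : ℝ) := by rw [mul_one]; exact hl1 i
      _ = 1 := by
          rw [Finset.sum_const, Finset.card_univ, Fintype.card_fin, nsmul_eq_mul]
          field_simp
  have hZD : Real.exp (-1) * (|(Wᵀ).det| * (1 / (2 * (N : ℝ) * (x ⬝ᵥ y))) ^ N) ≤ Z (dual C) x := by
    refine Z_ge (closed_dual C).measurableSet hx (by positivity) fun l hl0 hl1 => ⟨?_, ?_⟩
    · intro z hz
      rw [dotProduct_comm, dot_tr]
      exact Finset.sum_nonneg fun i _ => mul_nonneg (hl0 i) (hWD i z hz)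
    · rw [dot_tr]
      calc ∑ i, l i * (W i ⬝ᵥ x) ≤ ∑ _i : Fin N, 1 / (N : ℝ) := by
            refine Finset.sum_le_sum fun i _ => ?_
            calc l i * (W i ⬝ᵥ x) ≤ l i * (2 * (x ⬝ᵥ y)) :=
                  mul_le_mul_of_nonneg_left (hWx i) (hl0 i)
              _ ≤ 1 / (2 * (N : ℝ) * (x ⬝ᵥ y)) * (2 * (x ⬝ᵥ y)) :=
                  mul_le_mul_of_nonneg_right (hl1 i) (by positivity)
              _ = 1 / (N : ℝ) := by
                  field_simp
        _ = 1 := by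
            rw [Finset.sum_const, Finset.card_univ, Fintype.card_fin, nsmul_eq_mul]
            field_simp
  -- the determinants
  have hdets : 1 ≤ |(Vᵀ).det| * |(Wᵀ).det| := by
    have hWV : W * Vᵀ = 1 + replicateCol Unit (fun _ : Fin N => (1 : ℝ))
        * replicateRow Unit (fun j => y ⬝ᵥ V j) := by
      rw [hW, add_mul, hE, Matrix.nonsing_inv_mul _ (by
        rw [Matrix.det_transpose]; exact isUnit_iff_ne_zero.2 hdet), add_comm]
      congr 1
      ext i j
      simp [Matrix.mul_apply, dotProduct]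
    have h1 : W.det * V.det = 1 + ∑ j, y ⬝ᵥ V j := by
      have := congrArg Matrix.det hWV
      rw [Matrix.det_mul, Matrix.det_transpose,
        Matrix.det_one_add_replicateCol_mul_replicateRow] at this
      rw [this]
      simp [dotProduct]
    rw [Matrix.det_transpose, Matrix.det_transpose, ← abs_mul, mul_comm V.det, h1]
    have h2 : 0 ≤ ∑ j, y ⬝ᵥ V j := Finset.sum_nonneg fun j _ => hyC _ (hVC j)
    rw [abs_of_nonneg (by linarith)]
    linarith
  have hm := mul_le_mul hZC hZD (by positivity) (le_trans (by positivity) hZC)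
  have hm2 := mul_le_mul_of_nonneg_right hm (pow_nonneg hp.le N)
  refine le_trans ?_ hm2
  have e : Real.exp (-1) * (|(Vᵀ).det| * (1 / (N : ℝ)) ^ N) *
      (Real.exp (-1) * (|(Wᵀ).det| * (1 / (2 * (N : ℝ) * (x ⬝ᵥ y))) ^ N)) * (x ⬝ᵥ y) ^ N
      = (|(Vᵀ).det| * |(Wᵀ).det|) * (Real.exp (-1) * Real.exp (-1) *
        ((1 / (N : ℝ)) ^ N * (1 / (2 * (N : ℝ))) ^ N)) := by
    have h3 : (1 / (2 * (N : ℝ) * (x ⬝ᵥ y))) ^ N * (x ⬝ᵥ y) ^ N = (1 / (2 * (N : ℝ))) ^ N := by
      rw [← mul_pow]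
      congr 1
      field_simp
    rw [← h3]
    ring
  rw [e]
  have hc0 : 0 ≤ Real.exp (-1) * Real.exp (-1) *
      ((1 / (N : ℝ)) ^ N * (1 / (2 * (N : ℝ))) ^ N) := by positivity
  nlinarith [mul_le_mul_of_nonneg_right hdets hc0]

end Vale.Agent.P248.NS.T4
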