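import Vale.Agent.P248.NS.Defs

/-!
P248, near-sharp bound: the main inequality for cones from the blocks T1-T7.
-/

open MeasureTheory Set Matrix Filter Topology

namespace Vale.Agent.P248.NS.T8

open Vale.Agent.P254.R304 (covF limDens cone Good good_limDens tilt)

variable {N : ℕ} {C : Set (Fin N → ℝ)}

/-- the density of the cone is good -/
lemma good_cone (hC : CC C) {y : Fin N → ℝ} (hy : Pos C y) :
    ∃ a : ℝ, Good (limDens 0 (-y) C) (Real.exp 0) a := by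
  obtain ⟨a, ha, h⟩ := hy
  refine ⟨a, good_limDens Matrix.PosSemidef.zero hC.closed hC.int ha fun z hz => ?_⟩
  have := h z hz
  rw [neg_dotProduct]
  linarith

lemma cov_posDef (hC : CC C) {y : Fin N → ℝ} (hy : Pos C y) : (cov C y).PosDef := by
  obtain ⟨a, h⟩ := good_cone hC hy
  exact h.covF_posDef

lemma norm_pos_of_pos (hN : 0 < N) (hC : CC C) {y : Fin N → ℝ} (hy : Pos C y) : 0 < ‖y‖ := by
  have : Nonempty (Fin N) := ⟨⟨0, hN⟩⟩
  rw [norm_pos_iff]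
  rintro rfl
  obtain ⟨a, ha, h⟩ := hy
  -- `C ⊆ {0}`, contradiction with nonempty interior
  have h0 : C ⊆ {0} := fun z hz => by
    have := h z hz
    rw [zero_dotProduct] at this
    have hz0 : ‖z‖ ≤ 0 := by
      by_contra hc
      push Not at hc
      have := mul_pos ha hc
      linarith
    simpa using hz0
  have h1 := hC.int.mono (interior_mono h0)
  rw [interior_singleton] at h1
  exact Set.not_nonempty_empty h1

lemma exists_lower (hC : CC C) (hD : StmtDual) {x1 : Fin N → ℝ}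
    (hx1 : x1 ∈ interior C) :
    ∃ a : ℝ, 0 < a ∧ ∀ y, Pos C y → a * ‖y‖ ≤ x1 ⬝ᵥ y := by
  obtain ⟨h1, h2, h3⟩ := hD N C hC
  obtain ⟨a, ha, h⟩ := h2 x1 hx1
  exact ⟨a, ha, fun y hy => h y (interior_subset (h3 y hy))⟩

lemma pairing_pos (hN : 0 < N) (hC : CC C) (hD : StmtDual) {x y : Fin N → ℝ}
    (hx : Pos (dual C) x) (hy : Pos C y) : 0 < x ⬝ᵥ y := by
  obtain ⟨h1, h2, h3⟩ := hD N C hC
  obtain ⟨a, ha, h⟩ := hx
  have := h y (interior_subset (h3 y hy))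
  have h4 := norm_pos_of_pos hN hC hy
  exact (mul_pos ha h4).trans_le this

lemma dot_le {x y : Fin N → ℝ} : x ⬝ᵥ y ≤ N * ‖x‖ * ‖y‖ :=
  (le_abs_self _).trans (Vale.Agent.P254.R304.abs_dot_le' x y)

/-- one `ε` -/
theorem step (hN : 0 < N) (hC : CC C) (hD : StmtDual) (hL : StmtLoss) (hMin : StmtMin)
    (hSec : StmtSecond) (hMat : StmtMat) {δ : ℝ}
    (hNice : Vale.Agent.P254.X.Loss.NiceDDL δ N)
    {x1 y1 : Fin N → ℝ} (hx1 : x1 ∈ interior C) (hy1 : Pos C y1) {r : ℝ} (hr0 : 0 < r)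
    (hr : ∀ x y, Pos (dual C) x → Pos C y → r * (x ⬝ᵥ y) ≤ (x1 ⬝ᵥ y) * (x ⬝ᵥ y1))
    {ε : ℝ} (hε : 0 < ε) (hε1 : ε < 1) {x y : Fin N → ℝ} (hx : Pos (dual C) x) (hy : Pos C y) :
    N * Real.log ((N : ℝ) - ε) - 2 * δ * N + ε * Real.log r ≤ G C x1 y1 ε x y := by
  obtain ⟨hCD, h2, h3⟩ := hD N C hC
  obtain ⟨x0, y0, hx0, hy0, hmin⟩ := hMin N C hN hC x1 y1 hx1 hy1 ε hε hε1
  refine le_trans ?_ (hmin x y hx hy)
  have hp0 : 0 < x0 ⬝ᵥ y0 := pairing_pos hN hC hD hx0 hy0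
  have hN1 : (1 : ℝ) ≤ N := by exact_mod_cast hN
  have hk : 0 < ((N : ℝ) - ε) / (x0 ⬝ᵥ y0) := div_pos (by linarith) hp0
  have hs := hSec N C hN hC x1 y1 hx1 hy1 ε hε hε1 x0 y0 hx0 hy0 hmin
  have hA := cov_posDef hC hy0
  have hB := cov_posDef hCD hx0
  have hdet := hMat N _ _ _ hA hB hk.le hs
  have hl1 := hL δ N hNice C hC y0 hy0
  have hl2 := hL δ N hNice (dual C) hCD x0 hx0
  have hlog : 2 * N * (Real.log ((N : ℝ) - ε) - Real.log (x0 ⬝ᵥ y0)) ≤
      Real.log (cov C y0).det + Real.log (cov (dual C) x0).det := by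
    rw [← Real.log_mul hA.det_pos.ne' hB.det_pos.ne', ← Real.log_div (by linarith) hp0.ne']
    have := Real.log_le_log (pow_pos hk _) hdet
    rw [Real.log_pow] at this
    push_cast at this
    exact this
  have hx1y : 0 < x1 ⬝ᵥ y0 := by
    obtain ⟨a, ha, h⟩ := exists_lower hC hD hx1
    exact (mul_pos ha (norm_pos_of_pos hN hC hy0)).trans_le (h y0 hy0)
  have hxy1 : 0 < x0 ⬝ᵥ y1 := pairing_pos hN hC hD hx0 hy1
  have hR : Real.log r + Real.log (x0 ⬝ᵥ y0) ≤ Real.log (x1 ⬝ᵥ y0) + Real.log (x0 ⬝ᵥ y1) := by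
    rw [← Real.log_mul hr0.ne' hp0.ne', ← Real.log_mul hx1y.ne' hxy1.ne']
    exact Real.log_le_log (by positivity) (hr x0 y0 hx0 hy0)
  have hR' := mul_le_mul_of_nonneg_left hR hε.le
  unfold G
  nlinarith

theorem stmtMain_of (hD : StmtDual) (hSc : StmtScale) (hL : StmtLoss) (hMin : StmtMin)
    (hSec : StmtSecond) (hMat : StmtMat) : StmtMain := by
  intro δ N hN hNice C hC x y hx hy
  obtain ⟨hCD, h2, h3⟩ := hD N C hC
  obtain ⟨x1, hx1⟩ := hC.int
  obtain ⟨y1, hy1⟩ := hC.pos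
  obtain ⟨a, ha, hla⟩ := exists_lower hC hD hx1
  have hlb : ∃ b : ℝ, 0 < b ∧ ∀ x, Pos (dual C) x → b * ‖x‖ ≤ x ⬝ᵥ y1 := by
    obtain ⟨b, hb, h⟩ := exists_lower hCD hD (h3 y1 hy1)
    exact ⟨b, hb, fun x hx => by rw [dotProduct_comm]; exact h x hx⟩
  obtain ⟨b, hb, hlb⟩ := hlb
  have hN1 : (1 : ℝ) ≤ N := by exact_mod_cast hN
  set r : ℝ := a * b / N with hrd
  have hr0 : 0 < r := by positivity
  have hr : ∀ x y, Pos (dual C) x → Pos C y → r * (x ⬝ᵥ y) ≤ (x1 ⬝ᵥ y) * (x ⬝ᵥ y1) := by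
    intro x y hx hy
    have e1 := hla y hy
    have e2 := hlb x hx
    calc r * (x ⬝ᵥ y) ≤ r * (N * ‖x‖ * ‖y‖) := mul_le_mul_of_nonneg_left dot_le hr0.le
      _ = (a * ‖y‖) * (b * ‖x‖) := by rw [hrd]; field_simp
      _ ≤ _ := mul_le_mul e1 e2 (by positivity) ((by positivity : (0:ℝ) ≤ a * ‖y‖).trans e1)
  have hp : 0 < x ⬝ᵥ y := pairing_pos hN hC hD hx hy
  -- the limit `ε → 0`
  have hstep : ∀ ε : ℝ, 0 < ε → ε < 1 →
      N * Real.log ((N : ℝ) - ε) - 2 * δ * N + ε * Real.log r ≤ G C x1 y1 ε x y :=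
    fun ε hε hε1 => step hN hC hD hL hMin hSec hMat hNice hx1 hy1 hr0 hr hε hε1 hx hy
  have hlim : N * Real.log (N : ℝ) - 2 * δ * N ≤
      Real.log (Z C y) + Real.log (Z (dual C) x) + (N : ℝ) * Real.log (x ⬝ᵥ y) := by
    have c1 : Tendsto (fun ε : ℝ => N * Real.log ((N : ℝ) - ε) - 2 * δ * N + ε * Real.log r)
        (𝓝[>] 0) (𝓝 (N * Real.log ((N : ℝ) - 0) - 2 * δ * N + 0 * Real.log r)) := by
      refine Tendsto.mono_left ?_ nhdsWithin_le_nhds
      have : ContinuousAt (fun ε : ℝ => N * Real.log ((N : ℝ) - ε) - 2 * δ * N + ε * Real.log r)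
          0 := by
        have h1 : ContinuousAt (fun ε : ℝ => Real.log ((N : ℝ) - ε)) 0 :=
          ContinuousAt.log (by fun_prop) (by rw [sub_zero]; positivity)
        fun_prop
      exact this.tendsto
    have c2 : Tendsto (fun ε : ℝ => G C x1 y1 ε x y) (𝓝[>] 0) (𝓝 (G C x1 y1 0 x y)) := by
      refine Tendsto.mono_left ?_ nhdsWithin_le_nhds
      have : ContinuousAt (fun ε : ℝ => G C x1 y1 ε x y) 0 := by
        unfold G
        fun_prop
      exact this.tendsto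
    have h := le_of_tendsto_of_tendsto c1 c2 (by
      filter_upwards [Ioo_mem_nhdsGT (show (0:ℝ) < 1 by norm_num)] with ε hε
      exact hstep ε hε.1 hε.2)
    unfold G at h
    simpa using h
  have hZ1 := (hSc N C hC y hy).1
  have hZ2 := (hSc N (dual C) hCD x hx).1
  rw [← Real.log_le_log_iff (by positivity) (by positivity), Real.log_mul (by positivity)
    (by positivity), Real.log_exp, Real.log_pow, Real.log_mul (by positivity) (by positivity),
    Real.log_mul hZ1.ne' hZ2.ne', Real.log_pow]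
  linarith

end Vale.Agent.P248.NS.T8
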