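import Vale.Agent.P248.NS.T1
import Vale.Agent.P248.NS.T2a
import Vale.Agent.P248.NS.T4
import Vale.Agent.P248.NS.T8
import Vale.Agent.P248.MC.SecDer700
import Vale.Agent.P248.Cmp.Main

/-!
P248, near-sharp bound: the main inequality for cones, through the comparison theorem
`Cmp.Dat.main` (helper541).
-/

open MeasureTheory Set Matrix Filter Topology Metric

namespace Vale.Agent.P248.NS.Asm541

open Vale.Agent.P254.R304 (covF limDens cone Good good_limDens tilt abs_dot_le')
open Vale.Agent.P248.Cmp (SD Dat)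
open Vale.Agent.P248.MC.SD700 (J den log_der log_der2)

variable {N : ℕ} {C : Set (Fin N → ℝ)}

lemma lower {y : Fin N → ℝ} {a : ℝ} (ha : 0 < a) (h : ∀ z ∈ C, a * ‖z‖ ≤ y ⬝ᵥ z)
    {y' : Fin N → ℝ} (hy' : y' ∈ ball y (a / (2 * (N + 1)))) {z : Fin N → ℝ} (hz : z ∈ C) :
    a / 2 * ‖z‖ ≤ y' ⬝ᵥ z := by
  rw [mem_ball, dist_eq_norm, lt_div_iff₀ (by positivity)] at hy'
  have h1 := h z hz
  have h2 : y' ⬝ᵥ z = y ⬝ᵥ z + (y' - y) ⬝ᵥ z := by rw [sub_dotProduct]; ring
  have h3 := abs_dot_le' (y' - y) z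
  have h4 := neg_abs_le ((y' - y) ⬝ᵥ z)
  have h5 : (N : ℝ) * ‖y' - y‖ ≤ a / 2 := by nlinarith [norm_nonneg (y' - y)]
  have h6 := mul_le_mul_of_nonneg_right h5 (norm_nonneg z)
  rw [h2]
  linarith

lemma isOpen_pos (C : Set (Fin N → ℝ)) : IsOpen {y | Pos C y} := by
  rw [Metric.isOpen_iff]
  rintro y ⟨a, ha, h⟩
  exact ⟨a / (2 * (N + 1)), by positivity, fun y' hy' =>
    ⟨a / 2, by positivity, fun z hz => lower ha h hy' hz⟩⟩

lemma pos_smul {y : Fin N → ℝ} (hy : Pos C y) {t : ℝ} (ht : 0 < t) : Pos C (t • y) := by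
  obtain ⟨a, ha, h⟩ := hy
  refine ⟨t * a, by positivity, fun z hz => ?_⟩
  rw [smul_dotProduct, smul_eq_mul, mul_assoc]
  exact mul_le_mul_of_nonneg_left (h z hz) ht.le

lemma Z_cont (hC : CC C) {y : Fin N → ℝ} (hy : Pos C y) : ContinuousAt (Z C) y := by
  obtain ⟨a, ha, h⟩ := hy
  have e : Z C = fun y => ∫ z in C, Real.exp (-(y ⬝ᵥ z)) := rfl
  rw [e]
  refine continuousAt_of_dominated (bound := fun z => Real.exp (-(a / 2 * ‖z‖))) ?_ ?_ ?_ ?_
  · exact Eventually.of_forall fun y => (T2a.continuous_exp_dot y).aestronglyMeasurable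
  · filter_upwards [ball_mem_nhds y (show 0 < a / (2 * ((N : ℝ) + 1)) by positivity)] with y' hy'
    filter_upwards [ae_restrict_mem hC.closed.measurableSet] with z hz
    rw [Real.norm_of_nonneg (Real.exp_pos _).le]
    exact Real.exp_le_exp.2 (neg_le_neg (lower ha h hy' hz))
  · have := Vale.Agent.P254.R304.integrable_poly_exp N (show 0 < a / 2 by positivity) 0
    have h2 : Integrable (fun z : Fin N → ℝ => Real.exp (-(a / 2 * ‖z‖))) := by simpa using this
    exact h2.integrableOn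
  · refine Eventually.of_forall fun z => ?_
    have : Continuous fun y : Fin N → ℝ => Real.exp (-(y ⬝ᵥ z)) := by
      unfold dotProduct
      fun_prop
    exact this.continuousAt

lemma den_eq (C : Set (Fin N → ℝ)) (y : Fin N → ℝ) : den C y = limDens 0 (-y) C := by
  unfold den limDens
  congr 1
  ext z
  unfold tilt
  simp

/-- the second difference of a function with second derivative `q` -/
lemma sd_real {φ ψ : ℝ → ℝ} {q : ℝ} (h1 : ∀ᶠ t in 𝓝 (0 : ℝ), HasDerivAt φ (ψ t) t)
    (h2 : HasDerivAt ψ q 0) :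
    Tendsto (fun t : ℝ => (φ t + φ (-t) - 2 * φ 0) / t ^ 2) (𝓝[≠] 0) (𝓝 q) := by
  have hneg : Tendsto (fun t : ℝ => -t) (𝓝 0) (𝓝 0) := by
    have := (continuous_neg (G := ℝ)).tendsto 0
    simpa using this
  have h1' : ∀ᶠ t in 𝓝 (0 : ℝ), HasDerivAt φ (ψ (-t)) (-t) := hneg.eventually h1
  have hc : ContinuousAt φ 0 := (h1.self_of_nhds).continuousAt
  refine HasDerivAt.lhopital_zero_nhdsNE (f' := fun t => ψ t - ψ (-t)) (g' := fun t => 2 * t)
    ?_ ?_ ?_ ?_ ?_ ?_
  · filter_upwards [h1.filter_mono nhdsWithin_le_nhds, h1'.filter_mono nhdsWithin_le_nhds] with t ha hb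
    have hb' : HasDerivAt (fun t => φ (-t)) (-(ψ (-t))) t := by
      have := hb.comp t (hasDerivAt_neg t)
      simpa [Function.comp_def] using this
    have := (ha.add hb').sub_const (2 * φ 0)
    exact this.congr_deriv (by ring)
  · refine Eventually.of_forall fun t => ?_
    have := hasDerivAt_pow 2 t
    simpa using this
  · filter_upwards [self_mem_nhdsWithin] with t ht
    exact mul_ne_zero two_ne_zero ht
  · have hc' : Tendsto (fun t => φ (-t)) (𝓝 0) (𝓝 (φ 0)) := hc.tendsto.comp hneg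
    have h3 : Tendsto (fun t => φ t + φ (-t) - 2 * φ 0) (𝓝 0) (𝓝 (φ 0 + φ 0 - 2 * φ 0)) :=
      (hc.tendsto.add hc').sub_const _
    have e : φ 0 + φ 0 - 2 * φ 0 = 0 := by ring
    rw [e] at h3
    exact h3.mono_left nhdsWithin_le_nhds
  · have : Continuous fun t : ℝ => t ^ 2 := by fun_prop
    have h := this.tendsto 0
    simp only [ne_eq, OfNat.ofNat_ne_zero, not_false_eq_true, zero_pow] at h
    exact h.mono_left nhdsWithin_le_nhds
  · rw [hasDerivAt_iff_tendsto_slope_zero] at h2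
    have hneg' : Tendsto (fun t : ℝ => -t) (𝓝[≠] 0) (𝓝[≠] 0) := by
      refine tendsto_nhdsWithin_of_tendsto_nhds_of_eventually_within _
        (hneg.mono_left nhdsWithin_le_nhds) ?_
      filter_upwards [self_mem_nhdsWithin] with t ht
      simpa using ht
    have h3 := h2.comp hneg'
    have h4 := (h2.add h3).const_mul (1 / 2 : ℝ)
    have e : 1 / 2 * (q + q) = q := by ring
    rw [e] at h4
    refine h4.congr' ?_
    filter_upwards [self_mem_nhdsWithin] with t ht
    have ht0 : t ≠ 0 := ht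
    simp only [Function.comp_apply, zero_add, smul_eq_mul]
    field_simp
    ring

lemma sd (hC : CC C) {y : Fin N → ℝ} (hy : Pos C y) (b : Fin N → ℝ) :
    SD (fun y => Real.log (Z C y)) y b (b ⬝ᵥ cov C y *ᵥ b) := by
  obtain ⟨a, ha, h⟩ := hy
  have hm := hC.closed.measurableSet
  have hev : ∀ᶠ t : ℝ in 𝓝 0, |t| * (N * ‖b‖) < a := by
    have h1 : ContinuousAt (fun t : ℝ => |t| * (N * ‖b‖)) 0 := by fun_prop
    exact h1.eventually_lt continuousAt_const (by simpa using ha)
  have h2 := log_der2 hm hC.int (b := b) h (t := 0) (by simpa using ha)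
  rw [zero_smul, add_zero, den_eq] at h2
  have h3 := sd_real (hev.mono fun t ht => log_der hm hC.int (b := b) h ht) h2
  unfold SD
  refine h3.congr fun t => ?_
  have e1 : y + -t • b = y - t • b := by rw [neg_smul, ← sub_eq_add_neg]
  simp only [e1, zero_smul, add_zero]
  rfl

lemma add_mem (hC : CC C) {x y : Fin N → ℝ} (hx : x ∈ C) (hy : y ∈ C) : x + y ∈ C := by
  have h1 := hC.conv hx hy (show (0 : ℝ) ≤ 1 / 2 by norm_num) (show (0 : ℝ) ≤ 1 / 2 by norm_num)
    (by norm_num)
  have h2 := hC.cone _ h1 2 (by norm_num)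
  rw [smul_add, smul_smul, smul_smul] at h2
  norm_num at h2
  exact h2

/-- strict positivity on the cone is uniform -/
lemma pos_of_strict (hC : CC C) {y : Fin N → ℝ} (h : ∀ z ∈ C, z ≠ 0 → 0 < y ⬝ᵥ z) : Pos C y := by
  have hc : IsCompact (C ∩ sphere (0 : Fin N → ℝ) 1) := (isCompact_sphere 0 1).inter_left hC.closed
  have hcont : Continuous fun z : Fin N → ℝ => y ⬝ᵥ z := by
    unfold dotProduct
    fun_prop
  rcases (C ∩ sphere (0 : Fin N → ℝ) 1).eq_empty_or_nonempty with he | hne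
  · refine ⟨1, one_pos, fun z hz => ?_⟩
    have hz0 : z = 0 := by
      by_contra hz0
      have hn : 0 < ‖z‖ := norm_pos_iff.2 hz0
      have : ‖z‖⁻¹ • z ∈ C ∩ sphere (0 : Fin N → ℝ) 1 := by
        refine ⟨hC.cone z hz _ (by positivity), ?_⟩
        rw [mem_sphere_zero_iff_norm, norm_smul, norm_inv, norm_norm, inv_mul_cancel₀ hn.ne']
      rw [he] at this
      exact this
    rw [hz0]
    simp
  · obtain ⟨z1, hz1, hmin⟩ := hc.exists_isMinOn hne hcont.continuousOn
    have hz1n : z1 ≠ 0 := by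
      rintro rfl
      have := hz1.2
      simp at this
    refine ⟨y ⬝ᵥ z1, h z1 hz1.1 hz1n, fun z hz => ?_⟩
    by_cases hz0 : z = 0
    · rw [hz0]; simp
    have hn : 0 < ‖z‖ := norm_pos_iff.2 hz0
    have hmem : ‖z‖⁻¹ • z ∈ C ∩ sphere (0 : Fin N → ℝ) 1 := by
      refine ⟨hC.cone z hz _ (by positivity), ?_⟩
      rw [mem_sphere_zero_iff_norm, norm_smul, norm_inv, norm_norm, inv_mul_cancel₀ hn.ne']
    have h1 : y ⬝ᵥ z1 ≤ y ⬝ᵥ (‖z‖⁻¹ • z) := hmin hmem
    rw [dotProduct_smul, smul_eq_mul] at h1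
    have h2 := mul_le_mul_of_nonneg_right h1 hn.le
    have e : ‖z‖⁻¹ * (y ⬝ᵥ z) * ‖z‖ = y ⬝ᵥ z := by field_simp
    rw [e] at h2
    exact h2

/-- blow-up at the boundary of the dual cone -/
lemma blow (hC : CC C) {y : Fin N → ℝ} (hy : y ∈ dual C)
    (hfin : ∫⁻ z in C, ENNReal.ofReal (Real.exp (-(y ⬝ᵥ z))) ≠ ⊤) : Pos C y := by
  refine pos_of_strict hC fun z0 hz0 hne => ?_
  by_contra hle
  have h0 : y ⬝ᵥ z0 = 0 := le_antisymm (not_lt.1 hle) (hy z0 hz0)
  obtain ⟨y1, a, ha, h1⟩ := hC.pos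
  obtain ⟨z, hz⟩ := hC.int
  have hp : 0 < y1 ⬝ᵥ z0 := lt_of_lt_of_le (mul_pos ha (norm_pos_iff.2 hne)) (h1 z0 hz0)
  have hzp : 0 ≤ y1 ⬝ᵥ z := (mul_nonneg ha.le (norm_nonneg z)).trans (h1 z (interior_subset hz))
  set k : ℝ := (y1 ⬝ᵥ z) / (y1 ⬝ᵥ z0) + 1 with hk
  have hk0 : 0 ≤ k := by positivity
  set w : Fin N → ℝ := k • z0 with hw
  have hwC : w ∈ C := hC.cone z0 hz0 k hk0
  have hwy : y ⬝ᵥ w = 0 := by rw [hw, dotProduct_smul, h0, smul_zero]
  set f : (Fin N → ℝ) → ENNReal := fun z => ENNReal.ofReal (Real.exp (-(y ⬝ᵥ z))) with hf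
  have hfm : Measurable f := (T2a.continuous_exp_dot y).measurable.ennreal_ofReal
  have hfw : ∀ z, f (z - w) = f z := fun z => by
    simp only [hf, dotProduct_sub, hwy, sub_zero]
  set S : Set (Fin N → ℝ) := {z | z - w ∈ C} with hS
  have hSc : IsClosed S := hC.closed.preimage (by fun_prop : Continuous fun z : Fin N → ℝ => z - w)
  have hSC : S ⊆ C := fun z hz => by
    have := add_mem hC (show z - w ∈ C from hz) hwC
    rwa [sub_add_cancel] at this
  have hint : ∫⁻ z in S, f z = ∫⁻ z in C, f z := by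
    rw [← lintegral_indicator hSc.measurableSet, ← lintegral_indicator hC.closed.measurableSet,
      ← lintegral_sub_right_eq_self (fun z => C.indicator f z) w]
    refine lintegral_congr fun z => ?_
    by_cases hz : z - w ∈ C
    · rw [indicator_of_mem (show z ∈ S from hz), indicator_of_mem hz, hfw]
    · rw [indicator_of_notMem (show z ∉ S from hz), indicator_of_notMem hz]
  have hadd := lintegral_inter_add_diff (μ := (volume : Measure (Fin N → ℝ))) f C hSc.measurableSet
  rw [inter_eq_self_of_subset_right hSC, hint] at hadd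
  have hzero : ∫⁻ z in C \ S, f z = 0 := by
    have h5 : (∫⁻ z in C, f z) + ∫⁻ z in C \ S, f z = (∫⁻ z in C, f z) + 0 := by rw [hadd, add_zero]
    exact (ENNReal.add_right_inj hfin).1 h5
  have hzS : z ∉ S := fun hzS => by
    have h6 : 0 ≤ y1 ⬝ᵥ (z - w) :=
      (mul_nonneg ha.le (norm_nonneg _)).trans (h1 _ (show z - w ∈ C from hzS))
    rw [dotProduct_sub, hw, dotProduct_smul, smul_eq_mul, hk] at h6
    have e : ((y1 ⬝ᵥ z) / (y1 ⬝ᵥ z0) + 1) * (y1 ⬝ᵥ z0) = y1 ⬝ᵥ z + y1 ⬝ᵥ z0 := by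
      field_simp
    rw [e] at h6
    linarith
  have hopen : IsOpen (interior C \ S) := isOpen_interior.sdiff hSc
  have hpos : 0 < volume (interior C \ S) := hopen.measure_pos _ ⟨z, hz, hzS⟩
  have hsup : 0 < ∫⁻ z in C \ S, f z := by
    rw [setLIntegral_pos_iff hfm]
    refine hpos.trans_le (measure_mono fun x hx => ⟨?_, interior_subset hx.1, hx.2⟩)
    simp only [hf, Function.mem_support, ne_eq, ENNReal.ofReal_eq_zero, not_le]
    exact Real.exp_pos _
  exact hsup.ne' hzero

/-- properness -/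
lemma compact_sub (hN : 0 < N) (hC : CC C) {x1 : Fin N → ℝ} (hx1 : Pos (dual C) x1) (c : ℝ) :
    IsCompact {y | y ∈ {y | Pos C y} ∧ ‖y‖ = 1 ∧
      Real.log (Z C y) + N * Real.log (x1 ⬝ᵥ y) ≤ c} := by
  obtain ⟨a, ha, hxa⟩ := hx1
  have hdual : ∀ y, Pos C y → y ∈ dual C := fun y hy => interior_subset (T1.mem_interior_dual hy)
  refine Metric.isCompact_of_isClosed_isBounded ?_ ?_
  · refine IsSeqClosed.isClosed fun u y hu hlim => ?_
    have hn : ‖y‖ = 1 := by
      have h1 : Tendsto (fun k => ‖u k‖) atTop (𝓝 ‖y‖) := hlim.norm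
      have h2 : (fun k => ‖u k‖) = fun _ => (1 : ℝ) := funext fun k => (hu k).2.1
      rw [h2] at h1
      exact (tendsto_nhds_unique h1 tendsto_const_nhds)
    have hyd : y ∈ dual C := (T1.closed_dual C).mem_of_tendsto hlim
      (Eventually.of_forall fun k => hdual _ (hu k).1)
    -- bound of the integrals
    have hZ : ∀ k, Z C (u k) ≤ Real.exp (c - N * Real.log a) := by
      intro k
      have h1 : a ≤ x1 ⬝ᵥ u k := by
        have := hxa (u k) (hdual _ (hu k).1)
        rwa [(hu k).2.1, mul_one] at this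
      have h2 := Real.log_le_log ha h1
      have h3 := (hu k).2.2
      have hN0 : (0 : ℝ) ≤ N := Nat.cast_nonneg N
      have h4 := mul_le_mul_of_nonneg_left h2 hN0
      rw [← Real.log_le_iff_le_exp (T2a.Z_pos hC (hu k).1)]
      linarith
    have hL : ∀ k, ∫⁻ z in C, ENNReal.ofReal (Real.exp (-(u k ⬝ᵥ z))) ≤
        ENNReal.ofReal (Real.exp (c - N * Real.log a)) := by
      intro k
      rw [← ofReal_integral_eq_lintegral_ofReal (T2a.integrableOn_exp hC (hu k).1)
        (Eventually.of_forall fun z => (Real.exp_pos _).le)]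
      exact ENNReal.ofReal_le_ofReal (hZ k)
    have hfin : ∫⁻ z in C, ENNReal.ofReal (Real.exp (-(y ⬝ᵥ z))) ≠ ⊤ := by
      have h1 : ∫⁻ z in C, ENNReal.ofReal (Real.exp (-(y ⬝ᵥ z))) ≤
          liminf (fun k => ∫⁻ z in C, ENNReal.ofReal (Real.exp (-(u k ⬝ᵥ z)))) atTop := by
        have h2 : ∫⁻ z in C, ENNReal.ofReal (Real.exp (-(y ⬝ᵥ z))) =
            ∫⁻ z in C, liminf (fun k => ENNReal.ofReal (Real.exp (-(u k ⬝ᵥ z)))) atTop := by
          refine lintegral_congr fun z => ?_
          have hc : Continuous fun y : Fin N → ℝ => ENNReal.ofReal (Real.exp (-(y ⬝ᵥ z))) := by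
            refine ENNReal.continuous_ofReal.comp ?_
            unfold dotProduct
            fun_prop
          exact ((hc.tendsto y).comp hlim).liminf_eq.symm
        rw [h2]
        exact lintegral_liminf_le fun k => (T2a.continuous_exp_dot (u k)).measurable.ennreal_ofReal
      have h9 : liminf (fun k => ∫⁻ z in C, ENNReal.ofReal (Real.exp (-(u k ⬝ᵥ z)))) atTop ≤
          ENNReal.ofReal (Real.exp (c - N * Real.log a)) :=
        liminf_le_of_frequently_le' (Frequently.of_forall hL)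
      exact ne_top_of_le_ne_top ENNReal.ofReal_ne_top (h1.trans h9)
    have hpos := blow hC hyd hfin
    refine ⟨hpos, hn, ?_⟩
    have hp : 0 < x1 ⬝ᵥ y := by
      have := hxa y hyd
      rw [hn, mul_one] at this
      exact ha.trans_le this
    have hc1 : ContinuousAt (fun y => Real.log (Z C y) + N * Real.log (x1 ⬝ᵥ y)) y := by
      have h1 : ContinuousAt (fun y : Fin N → ℝ => x1 ⬝ᵥ y) y := by
        have : Continuous fun y : Fin N → ℝ => x1 ⬝ᵥ y := by
          unfold dotProduct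
          fun_prop
        exact this.continuousAt
      exact ((Z_cont hC hpos).log (T2a.Z_pos hC hpos).ne').add
        (continuousAt_const.mul (h1.log hp.ne'))
    exact le_of_tendsto (hc1.tendsto.comp hlim) (Eventually.of_forall fun k => (hu k).2.2)
  · refine (isBounded_closedBall (x := (0 : Fin N → ℝ)) (r := 1)).subset fun y hy => ?_
    rw [mem_closedBall_zero_iff]
    exact hy.2.1.le

theorem stmtMain_of (hL : StmtLoss) : StmtMain := by
  intro δ N hN hNice C hC x y hx hy
  have hD := T1.stmtDual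
  obtain ⟨hCD, h2, h3⟩ := hD N C hC
  obtain ⟨c, hc, hcr⟩ := T4.stmtCrude N C hN hC
  have hZ1 : ∀ {y}, Pos C y → 0 < Z C y := fun h => T2a.Z_pos hC h
  have hZ2 : ∀ {x}, Pos (dual C) x → 0 < Z (dual C) x := fun h => T2a.Z_pos hCD h
  have hp : ∀ x, Pos (dual C) x → ∀ y, Pos C y → 0 < x ⬝ᵥ y := fun x hx y hy =>
    T8.pairing_pos hN hC hD hx hy
  have hom : ∀ {V : Set (Fin N → ℝ)}, CC V → ∀ y ∈ {y | Pos V y}, ∀ t : ℝ, 0 < t →
      Real.log (Z V (t • y)) = Real.log (Z V y) - N * Real.log t := by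
    intro V hV y hy t ht
    rw [(T2a.stmtScale N V hV y hy).2 t ht, Real.log_mul (by positivity) (T2a.Z_pos hV hy).ne',
      Real.log_inv, Real.log_pow]
    ring
  have hdet : ∀ {V : Set (Fin N → ℝ)}, CC V → ∀ y ∈ {y | Pos V y},
      (cov V y).det ≤ Real.exp (2 * δ * N) * Real.exp (2 * Real.log (Z V y)) := by
    intro V hV y hy
    have h := hL δ N hNice V hV y hy
    have hdp := (T8.cov_posDef hV hy).det_pos
    rw [← Real.exp_add, ← Real.log_le_iff_le_exp hdp]
    linarith
  have hcontZ : ∀ {V : Set (Fin N → ℝ)}, CC V → ContinuousOn (fun y => Real.log (Z V y)) {y | Pos V y} :=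
    fun hV y hy => ((Z_cont hV hy).log (T2a.Z_pos hV hy).ne').continuousWithinAt
  have hdat : Dat {x | Pos (dual C) x} {y | Pos C y} (fun y => Real.log (Z C y))
      (fun x => Real.log (Z (dual C) x)) (cov C) (cov (dual C)) (Real.exp (2 * δ * N)) :=
    { Npos := hN
      opC := isOpen_pos _
      opC' := isOpen_pos _
      smC := fun x hx t ht => pos_smul hx ht
      smC' := fun y hy t ht => pos_smul hy ht
      pos := fun x hx y hy => hp x hx y hy
      contu := hcontZ hC
      contg := hcontZ hCD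
      homu := hom hC
      homg := hom hCD
      Ppos := fun y hy => T8.cov_posDef hC hy
      Qpos := fun x hx => T8.cov_posDef hCD hx
      sdu := fun y hy b => sd hC hy b
      sdg := fun x hx b => sd hCD hx b
      Dpos := Real.exp_pos _
      detu := hdet hC
      detg := hdet hCD }
  have hprog : ∀ c : ℝ, IsCompact {x | x ∈ {x | Pos (dual C) x} ∧ ‖x‖ = 1 ∧
      Real.log (Z (dual C) x) + N * Real.log (x ⬝ᵥ y) ≤ c} := by
    intro c
    have hy2 : Pos (dual (dual C)) y := T1.pos_dual (h3 y hy)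
    have := compact_sub hN hCD hy2 c
    simpa only [dotProduct_comm y] using this
  have hM : ∀ x ∈ {x | Pos (dual C) x}, ∀ y ∈ {y | Pos C y},
      -(-Real.log c) ≤ Real.log (Z C y) + Real.log (Z (dual C) x) + N * Real.log (x ⬝ᵥ y) := by
    intro x hx y hy
    have h1 := hcr x y hx hy
    have h4 := hp x hx y hy
    have h5 := hZ1 hy
    have h6 := hZ2 hx
    have h7 := Real.log_le_log hc h1
    rw [Real.log_mul (by positivity) (by positivity), Real.log_mul h5.ne' h6.ne', Real.log_pow] at h7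
    linarith
  have hfin := hdat.main (x1 := x) (y1 := y) hx hy (fun c => compact_sub hN hC hx c) hprog hM hx hy
  have h4 := hp x hx y hy
  have h5 := hZ1 hy
  have h6 := hZ2 hx
  have hN0 : (0 : ℝ) < N := by exact_mod_cast hN
  rw [Real.log_exp] at hfin
  rw [← Real.log_le_log_iff (by positivity) (by positivity), Real.log_mul (Real.exp_pos _).ne'
    (by positivity), Real.log_exp, Real.log_pow, Real.log_mul (by positivity) (by positivity),
    Real.log_mul h5.ne' h6.ne', Real.log_pow]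
  linarith

end Vale.Agent.P248.NS.Asm541
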