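import Vale.Agent.P254.X.Loss

/-!
P248, general Mahler conjecture up to an explicit exponential factor, in every dimension
(helper830): statements.  `C` = closed convex cone in `ℝᴺ`, `D` = its dual cone.
-/

open MeasureTheory Set Matrix Filter Topology

namespace Vale.Agent.P248.NS

open Vale.Agent.P254.R304 (covF limDens cone)

/-- Laplace transform of the cone `C` -/
noncomputable def Z {N : ℕ} (C : Set (Fin N → ℝ)) (y : Fin N → ℝ) : ℝ :=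
  ∫ z in C, Real.exp (-(y ⬝ᵥ z))

/-- dual cone -/
def dual {N : ℕ} (C : Set (Fin N → ℝ)) : Set (Fin N → ℝ) := {w | ∀ z ∈ C, 0 ≤ w ⬝ᵥ z}

/-- `y` is positive on `C` without the origin -/
def Pos {N : ℕ} (C : Set (Fin N → ℝ)) (y : Fin N → ℝ) : Prop :=
  ∃ a : ℝ, 0 < a ∧ ∀ z ∈ C, a * ‖z‖ ≤ y ⬝ᵥ z

/-- pointed closed convex cone with nonempty interior -/
structure CC {N : ℕ} (C : Set (Fin N → ℝ)) : Prop where
  closed : IsClosed C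
  conv : Convex ℝ C
  cone : ∀ z ∈ C, ∀ t : ℝ, 0 ≤ t → t • z ∈ C
  int : (interior C).Nonempty
  pos : ∃ y, Pos C y

/-- covariance matrix of the density `exp (-⟨y, z⟩)` on `C` -/
noncomputable def cov {N : ℕ} (C : Set (Fin N → ℝ)) (y : Fin N → ℝ) : Matrix (Fin N) (Fin N) ℝ :=
  covF (limDens 0 (-y) C)

/-- block T1: elementary facts on dual cones -/
def StmtDual : Prop := ∀ (N : ℕ) (C : Set (Fin N → ℝ)), CC C →
  CC (dual C) ∧ (∀ x ∈ interior C, Pos (dual C) x) ∧ (∀ y, Pos C y → y ∈ interior (dual C))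

/-- block T2: scaling, positivity -/
def StmtScale : Prop := ∀ (N : ℕ) (C : Set (Fin N → ℝ)), CC C → ∀ y, Pos C y →
  0 < Z C y ∧ ∀ s : ℝ, 0 < s → Z C (s • y) = (s ^ N)⁻¹ * Z C y

/-- block T2: the loss inequality in terms of `Z` -/
def StmtLoss : Prop := ∀ (δ : ℝ) (N : ℕ), Vale.Agent.P254.X.Loss.NiceDDL δ N →
  ∀ (C : Set (Fin N → ℝ)), CC C → ∀ y, Pos C y →
    1 / 2 * Real.log (cov C y).det - δ * N ≤ Real.log (Z C y)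

/-- block T3: second differences -/
def StmtDiff : Prop := ∀ (N : ℕ) (C : Set (Fin N → ℝ)), CC C → ∀ y, Pos C y → ∀ η : Fin N → ℝ,
  ∃ B t0 : ℝ, 0 < t0 ∧ ∀ t : ℝ, |t| < t0 →
    Z C (y + t • η) * Z C (y - t • η) ≤
      Z C y ^ 2 * (1 + t ^ 2 * (η ⬝ᵥ cov C y *ᵥ η) + B * |t| ^ 3)

/-- block T4: a crude lower bound -/
def StmtCrude : Prop := ∀ (N : ℕ) (C : Set (Fin N → ℝ)), 0 < N → CC C →
  ∃ c : ℝ, 0 < c ∧ ∀ x y, Pos (dual C) x → Pos C y →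
    c ≤ Z C y * Z (dual C) x * (x ⬝ᵥ y) ^ N

/-- the penalised functional -/
noncomputable def G {N : ℕ} (C : Set (Fin N → ℝ)) (x1 y1 : Fin N → ℝ) (ε : ℝ)
    (x y : Fin N → ℝ) : ℝ :=
  Real.log (Z C y) + Real.log (Z (dual C) x) + ((N : ℝ) - ε) * Real.log (x ⬝ᵥ y)
    + ε * (Real.log (x1 ⬝ᵥ y) + Real.log (x ⬝ᵥ y1))

/-- block T5: existence of a minimum point -/
def StmtMin : Prop := ∀ (N : ℕ) (C : Set (Fin N → ℝ)), 0 < N → CC C → ∀ x1 y1 : Fin N → ℝ,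
  x1 ∈ interior C → Pos C y1 → ∀ ε : ℝ, 0 < ε → ε < 1 →
    ∃ x0 y0, Pos (dual C) x0 ∧ Pos C y0 ∧ ∀ x y, Pos (dual C) x → Pos C y →
      G C x1 y1 ε x0 y0 ≤ G C x1 y1 ε x y

/-- block T6: second order condition at the minimum point -/
def StmtSecond : Prop := ∀ (N : ℕ) (C : Set (Fin N → ℝ)), 0 < N → CC C → ∀ x1 y1 : Fin N → ℝ,
  x1 ∈ interior C → Pos C y1 → ∀ ε : ℝ, 0 < ε → ε < 1 → ∀ x0 y0, Pos (dual C) x0 → Pos C y0 →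
    (∀ x y, Pos (dual C) x → Pos C y → G C x1 y1 ε x0 y0 ≤ G C x1 y1 ε x y) →
    ∀ ξ η : Fin N → ℝ, 0 ≤ η ⬝ᵥ cov C y0 *ᵥ η + ξ ⬝ᵥ cov (dual C) x0 *ᵥ ξ
      + 2 * (((N : ℝ) - ε) / (x0 ⬝ᵥ y0)) * (ξ ⬝ᵥ η)

/-- block T7: matrix lemma -/
def StmtMat : Prop := ∀ (N : ℕ) (A B : Matrix (Fin N) (Fin N) ℝ) (k : ℝ), A.PosDef → B.PosDef →
  0 ≤ k → (∀ ξ η : Fin N → ℝ, 0 ≤ η ⬝ᵥ A *ᵥ η + ξ ⬝ᵥ B *ᵥ ξ + 2 * k * (ξ ⬝ᵥ η)) →
    k ^ (2 * N) ≤ A.det * B.det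

/-- block T8: the main inequality for cones -/
def StmtMain : Prop := ∀ (δ : ℝ) (N : ℕ), 0 < N → Vale.Agent.P254.X.Loss.NiceDDL δ N →
  ∀ (C : Set (Fin N → ℝ)), CC C → ∀ x y, Pos (dual C) x → Pos C y →
    Real.exp (-(2 * δ * N)) * (N : ℝ) ^ N ≤ Z C y * Z (dual C) x * (x ⬝ᵥ y) ^ N

/-- polar body of `K` with respect to `z`, coordinates `Fin n → ℝ` -/
def polarP {n : ℕ} (K : Set (Fin n → ℝ)) (z : Fin n → ℝ) : Set (Fin n → ℝ) :=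
  {w | ∀ x ∈ K, w ⬝ᵥ (x - z) ≤ 1}

/-- block T9: the cone over `K` -/
def StmtCone : Prop := ∀ (n : ℕ) (K : Set (Fin n → ℝ)), Vale.Agent.P254.IsConvexBody K →
  ∀ z ∈ interior K, CC (cone K) ∧ Pos (cone K) (Fin.cons 1 0) ∧
    Pos (dual (cone K)) (Fin.cons 1 z) ∧
    Z (cone K) (Fin.cons 1 0) = (n.factorial : ℝ) * (volume K).toReal ∧
    Z (dual (cone K)) (Fin.cons 1 z) = (n.factorial : ℝ) * (volume (polarP K z)).toReal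

end Vale.Agent.P248.NS
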