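import Vale.Agent.P248.NS.Defs

/-! P248/NS, block T1: dual cones. -/

open MeasureTheory Set Matrix Filter Topology Metric

namespace Vale.Agent.P248.NS.T1

variable {N : ℕ} {C : Set (Fin N → ℝ)}

lemma abs_dot_le (v z : Fin N → ℝ) : |v ⬝ᵥ z| ≤ (∑ i, |v i|) * ‖z‖ := by
  unfold dotProduct
  rw [Finset.sum_mul]
  refine (Finset.abs_sum_le_sum_abs _ _).trans (Finset.sum_le_sum fun i _ => ?_)
  rw [abs_mul]
  exact mul_le_mul_of_nonneg_left (norm_le_pi_norm z i) (abs_nonneg _)

lemma sum_abs_le (v : Fin N → ℝ) : ∑ i, |v i| ≤ N * ‖v‖ := by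
  refine (Finset.sum_le_card_nsmul _ _ ‖v‖ fun i _ => norm_le_pi_norm v i).trans ?_
  simp

lemma norm_le_sum_abs (v : Fin N → ℝ) : ‖v‖ ≤ ∑ i, |v i| := by
  refine (pi_norm_le_iff_of_nonneg (Finset.sum_nonneg fun i _ => abs_nonneg _)).2 fun i => ?_
  exact Finset.single_le_sum (f := fun i => |v i|) (fun i _ => abs_nonneg _) (Finset.mem_univ i)

/-- (b) -/
lemma pos_dual {x : Fin N → ℝ} (hx : x ∈ interior C) : Pos (dual C) x := by
  obtain ⟨r, hr, hb⟩ := Metric.isOpen_iff.1 isOpen_interior x hx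
  refine ⟨r / 2, by positivity, fun w hw => ?_⟩
  set s : Fin N → ℝ := fun i => (SignType.sign (w i) : ℝ) with hs
  have hz : x - (r / 2) • s ∈ C := by
    refine interior_subset (hb ?_)
    rw [mem_ball, dist_eq_norm, show x - (r / 2) • s - x = -((r / 2) • s) by abel, norm_neg, norm_smul,
      Real.norm_of_nonneg (by positivity)]
    have h1 : ‖s‖ ≤ 1 := by
      refine (pi_norm_le_iff_of_nonneg zero_le_one).2 fun i => ?_
      simp only [hs]
      rcases lt_trichotomy (w i) 0 with h | h | h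
      · simp [sign_neg h]
      · simp [h]
      · simp [sign_pos h]
    nlinarith
  have h2 := hw _ hz
  have h3 : w ⬝ᵥ s = ∑ i, |w i| := by
    unfold dotProduct
    refine Finset.sum_congr rfl fun i _ => ?_
    simp only [hs]
    rw [mul_comm]
    exact sign_mul_self (w i)
  rw [dotProduct_sub, dotProduct_smul, h3, smul_eq_mul, dotProduct_comm w x] at h2
  have h4 := norm_le_sum_abs w
  nlinarith

/-- (c) -/
lemma mem_interior_dual {y : Fin N → ℝ} (hy : Pos C y) : y ∈ interior (dual C) := by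
  obtain ⟨a, ha, h⟩ := hy
  refine mem_interior.2 ⟨ball y (a / (N + 1)), fun w hw z hz => ?_, isOpen_ball,
    mem_ball_self (by positivity)⟩
  have h1 := h z hz
  have h2 : w ⬝ᵥ z = y ⬝ᵥ z + (w - y) ⬝ᵥ z := by rw [sub_dotProduct]; ring
  have h3 := abs_dot_le (w - y) z
  have h4 := sum_abs_le (w - y)
  rw [mem_ball, dist_eq_norm, lt_div_iff₀ (by positivity)] at hw
  have h5 : (∑ i, |(w - y) i|) * ‖z‖ ≤ a * ‖z‖ := by
    refine mul_le_mul_of_nonneg_right (h4.trans ?_) (norm_nonneg _)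
    nlinarith [norm_nonneg (w - y)]
  have h6 := neg_abs_le ((w - y) ⬝ᵥ z)
  rw [h2]
  linarith

lemma closed_dual (C : Set (Fin N → ℝ)) : IsClosed (dual C) := by
  have : dual C = ⋂ z ∈ C, {w | 0 ≤ w ⬝ᵥ z} := by
    ext w
    simp [dual]
  rw [this]
  refine isClosed_biInter fun z _ => isClosed_le continuous_const ?_
  unfold dotProduct
  fun_prop

lemma conv_dual (C : Set (Fin N → ℝ)) : Convex ℝ (dual C) := by
  intro u hu v hv a b ha hb _ z hz
  rw [add_dotProduct, smul_dotProduct, smul_dotProduct, smul_eq_mul, smul_eq_mul]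
  have := hu z hz
  have := hv z hz
  positivity

theorem stmtDual : StmtDual := by
  intro N C hC
  obtain ⟨y, hy⟩ := hC.pos
  obtain ⟨x, hx⟩ := hC.int
  refine ⟨⟨closed_dual C, conv_dual C, fun w hw t ht z hz => ?_, ⟨y, mem_interior_dual hy⟩,
    ⟨x, pos_dual hx⟩⟩, fun x hx => pos_dual hx, fun y hy => mem_interior_dual hy⟩
  rw [smul_dotProduct, smul_eq_mul]
  exact mul_nonneg ht (hw z hz)

end Vale.Agent.P248.NS.T1
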