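import Vale.Agent.P248.NS.T8
import Vale.Agent.P248.Defs

/-!
P248, near-sharp bound: from the inequality for cones to the volume product of convex bodies.
-/

open MeasureTheory Set Matrix Filter Topology

namespace Vale.Agent.P248.NS.T10

open Vale.Agent.P254.R304 (cone)

/-- the inequality for convex bodies, coordinates `Fin n → ℝ` -/
theorem body_of (hMain : StmtMain) (hCone : StmtCone) {δ : ℝ} {n : ℕ}
    (hNice : Vale.Agent.P254.X.Loss.NiceDDL δ (n + 1)) {K : Set (Fin n → ℝ)}
    (hK : Vale.Agent.P254.IsConvexBody K) {z : Fin n → ℝ} (hz : z ∈ interior K) :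
    Real.exp (-(2 * δ * ((n : ℝ) + 1))) * (((n : ℝ) + 1) ^ (n + 1) / (n.factorial : ℝ) ^ 2) ≤
      (volume K).toReal * (volume (polarP K z)).toReal := by
  obtain ⟨h1, h2, h3, h4, h5⟩ := hCone n K hK z hz
  have h := hMain δ (n + 1) (Nat.succ_pos n) hNice (cone K) h1 _ _ h3 h2
  rw [h4, h5] at h
  have e : (Fin.cons 1 z : Fin (n + 1) → ℝ) ⬝ᵥ (Fin.cons 1 0 : Fin (n + 1) → ℝ) = 1 := by
    unfold dotProduct
    rw [Fin.sum_univ_succ]
    simp
  rw [e, one_pow, mul_one] at h
  push_cast at h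
  have hf : (0 : ℝ) < (n.factorial : ℝ) := by positivity
  rw [← mul_div_assoc, div_le_iff₀ (by positivity)]
  calc _ ≤ _ := h
    _ = _ := by ring

/-- the measure preserving identification `EuclideanSpace ℝ (Fin n) ≃ (Fin n → ℝ)` -/
theorem volumeProduct_ge {n : ℕ} {c : ℝ}
    (h : ∀ K : Set (Fin n → ℝ), Vale.Agent.P254.IsConvexBody K → ∀ z ∈ interior K,
      c ≤ (volume K).toReal * (volume (polarP K z)).toReal)
    {K : Set (EuclideanSpace ℝ (Fin n))} (hK : Vale.Agent.P248.IsConvexBody K) :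
    ENNReal.ofReal c ≤ Vale.Agent.P248.volumeProduct K := by
  set e : EuclideanSpace ℝ (Fin n) ≃L[ℝ] (Fin n → ℝ) := EuclideanSpace.equiv (Fin n) ℝ with he
  have hmp : MeasurePreserving (e : EuclideanSpace ℝ (Fin n) → (Fin n → ℝ)) :=
    PiLp.volume_preserving_ofLp (Fin n)
  have hme : MeasurableEmbedding (e : EuclideanSpace ℝ (Fin n) → (Fin n → ℝ)) :=
    e.toHomeomorph.measurableEmbedding
  have hvol : ∀ S : Set (EuclideanSpace ℝ (Fin n)), volume (e '' S) = volume S := by
    intro S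
    rw [← hmp.measure_preimage_emb hme, Set.preimage_image_eq _ e.injective]
  unfold Vale.Agent.P248.volumeProduct
  refine le_iInf₂ fun z hz => ?_
  have hK' : Vale.Agent.P254.IsConvexBody (e '' K) := by
    refine ⟨?_, hK.1.image e.continuous, ?_⟩
    · exact hK.2.1.linear_image e.toLinearMap
    · have h3 := e.toHomeomorph.image_interior K
      have h4 : (e.toHomeomorph '' interior K).Nonempty := hK.2.2.image _
      rw [h3] at h4
      exact h4
  have hz' : e z ∈ interior (e '' K) := by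
    have := e.toHomeomorph.image_interior K
    have h2 : e z ∈ e.toHomeomorph '' interior K := ⟨z, hz, rfl⟩
    rw [this] at h2
    exact h2
  have h1 := h (e '' K) hK' (e z) hz'
  have hpol : polarP (e '' K) (e z) = e '' (Vale.Agent.P248.polarAt K z) := by
    ext w
    constructor
    · intro hw
      refine ⟨e.symm w, fun x hx => ?_, by simp⟩
      have h5 : w ⬝ᵥ (e x - e z) ≤ 1 := hw (e x) ⟨x, hx, rfl⟩
      rw [EuclideanSpace.inner_eq_star_dotProduct]
      change (e x - e z) ⬝ᵥ star w ≤ 1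
      rw [star_trivial, dotProduct_comm]
      exact h5
    · rintro ⟨y, hy, rfl⟩ _ ⟨x, hx, rfl⟩
      have h5 := hy x hx
      rw [EuclideanSpace.inner_eq_star_dotProduct] at h5
      change (e x - e z) ⬝ᵥ star (e y) ≤ 1 at h5
      rw [star_trivial, dotProduct_comm] at h5
      exact h5
  rw [hpol, hvol, hvol] at h1
  refine (ENNReal.ofReal_le_ofReal h1).trans ?_
  rw [ENNReal.ofReal_mul ENNReal.toReal_nonneg]
  exact mul_le_mul' ENNReal.ofReal_toReal_le ENNReal.ofReal_toReal_le

/-- the near-sharp general Mahler inequality, `δ` = loss of stage 3 -/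
theorem near_sharp_of (hMain : StmtMain) (hCone : StmtCone) {δ : ℝ}
    (hNice : ∀ N, Vale.Agent.P254.X.Loss.NiceDDL δ N) {n : ℕ}
    {K : Set (EuclideanSpace ℝ (Fin n))} (hK : Vale.Agent.P248.IsConvexBody K) :
    ENNReal.ofReal (Real.exp (-(2 * δ * ((n : ℝ) + 1))) *
      (((n : ℝ) + 1) ^ (n + 1) / (n.factorial : ℝ) ^ 2)) ≤ Vale.Agent.P248.volumeProduct K :=
  volumeProduct_ge (fun _ hK _ hz => body_of hMain hCone (hNice (n + 1)) hK hz) hK

end Vale.Agent.P248.NS.T10
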