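import Vale.Agent.P248.NS.Defs

/-!
P248, block T2 (helper595): scaling of the Laplace transform of a cone, and the loss inequality
in terms of `Z`.
-/

open MeasureTheory Set Matrix Filter Topology
open scoped Pointwise

namespace Vale.Agent.P248.NS.T2

open Vale.Agent.P254.R304

variable {N : ℕ} {C : Set (Fin N → ℝ)} {y : Fin N → ℝ}

lemma limDens_eq (C : Set (Fin N → ℝ)) (y : Fin N → ℝ) :
    limDens 0 (-y) C = C.indicator (fun z => Real.exp (-(y ⬝ᵥ z))) := by
  unfold limDens
  congr 1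
  ext z
  simp [tilt, neg_dotProduct]

lemma Z_eq (hC : MeasurableSet C) (y : Fin N → ℝ) : Z C y = ∫ z, limDens 0 (-y) C z := by
  rw [limDens_eq, integral_indicator hC]
  rfl

lemma good (hC : CC C) (hy : Pos C y) :
    ∃ a, Good (limDens 0 (-y) C) (Real.exp 0) a := by
  obtain ⟨a, ha, h⟩ := hy
  exact ⟨a, good_limDens Matrix.PosSemidef.zero hC.closed hC.int ha (fun z hz => by
    have := h z hz
    rw [neg_dotProduct]; linarith)⟩

lemma Z_pos (hC : CC C) (hy : Pos C y) : 0 < Z C y := by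
  obtain ⟨a, hg⟩ := good hC hy
  rw [Z_eq hC.closed.measurableSet]
  exact hg.mass_pos

lemma smul_cone (hC : CC C) {s : ℝ} (hs : 0 < s) : s • C = C := by
  ext z
  constructor
  · rintro ⟨w, hw, rfl⟩
    exact hC.cone w hw s hs.le
  · intro hz
    refine ⟨s⁻¹ • z, hC.cone z hz _ (inv_pos.2 hs).le, ?_⟩
    simp [smul_smul, hs.ne']

lemma Z_smul (hC : CC C) (y : Fin N → ℝ) {s : ℝ} (hs : 0 < s) :
    Z C (s • y) = (s ^ N)⁻¹ * Z C y := by
  have h := Measure.setIntegral_comp_smul_of_pos (μ := volume)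
    (fun z : Fin N → ℝ => Real.exp (-(y ⬝ᵥ z))) C hs
  rw [smul_cone hC hs, Module.finrank_fin_fun, smul_eq_mul] at h
  unfold Z
  rw [← h]
  congr 1
  ext z
  rw [dotProduct_smul, smul_dotProduct]

theorem stmtScale : StmtScale := fun _ _ hC y hy => ⟨Z_pos hC hy, fun _ hs => Z_smul hC y hs⟩

lemma pg_dot (y : Fin N → ℝ) : PolyGrowth (fun x : Fin N → ℝ => y ⬝ᵥ x) := by
  refine ⟨?_, N * ‖y‖, 1, fun x => ?_⟩
  · apply Continuous.aestronglyMeasurable
    simp only [dotProduct]
    fun_prop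
  · have h1 := abs_dot_le' y x
    have h2 : 0 ≤ (N : ℝ) * ‖y‖ := by positivity
    rw [pow_one]
    nlinarith [norm_nonneg x]

/-- the mean of `⟨y, z⟩` is `N` -/
lemma mean (hC : CC C) (hy : Pos C y) :
    ∫ z, (y ⬝ᵥ z) * limDens 0 (-y) C z = N * Z C y := by
  obtain ⟨a, hg⟩ := good hC hy
  have hZ := Z_pos hC hy
  set I := ∫ z, (y ⬝ᵥ z) * limDens 0 (-y) C z with hI
  have key : ∀ s : ℝ, 0 < s → Z C y - (s - 1) * I ≤ (s ^ N)⁻¹ * Z C y := by
    intro s hs
    rw [← Z_smul hC y hs]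
    have hsy : Pos C (s • y) := by
      obtain ⟨a', ha', h'⟩ := hy
      refine ⟨s * a', mul_pos hs ha', fun z hz => ?_⟩
      rw [smul_dotProduct, smul_eq_mul, mul_assoc]
      exact mul_le_mul_of_nonneg_left (h' z hz) hs.le
    obtain ⟨a', hg'⟩ := good hC hsy
    rw [Z_eq hC.closed.measurableSet, Z_eq hC.closed.measurableSet, hI, ← integral_const_mul,
      ← integral_sub hg.int1 ((hg.int (pg_dot y)).const_mul _)]
    refine integral_mono (hg.int1.sub ((hg.int (pg_dot y)).const_mul _)) hg'.int1 fun z => ?_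
    rw [limDens_eq, limDens_eq]
    by_cases hz : z ∈ C
    · simp only [indicator_of_mem hz, smul_dotProduct, smul_eq_mul]
      have e1 : Real.exp (-(s * (y ⬝ᵥ z))) =
          Real.exp (-(y ⬝ᵥ z)) * Real.exp (-((s - 1) * (y ⬝ᵥ z))) := by
        rw [← Real.exp_add]; congr 1; ring
      rw [e1]
      have e2 := Real.add_one_le_exp (-((s - 1) * (y ⬝ᵥ z)))
      have e3 := (Real.exp_pos (-(y ⬝ᵥ z))).le
      nlinarith [mul_le_mul_of_nonneg_left e2 e3]
    · simp [indicator_of_notMem hz]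
  have hmin : IsLocalMin (fun s : ℝ => (s ^ N)⁻¹ * Z C y + (s - 1) * I) 1 := by
    filter_upwards [Ioi_mem_nhds (show (0 : ℝ) < 1 by norm_num)] with s hs
    have := key s hs
    simp only [one_pow, inv_one, one_mul, sub_self, zero_mul, add_zero]
    linarith
  have hd : HasDerivAt (fun s : ℝ => (s ^ N)⁻¹ * Z C y + (s - 1) * I) (-N * Z C y + 1 * I) 1 := by
    have h1 : HasDerivAt (fun s : ℝ => (s ^ N)⁻¹) (-N) 1 := by
      have := (hasDerivAt_pow N (1 : ℝ)).fun_inv (by simp)
      simpa using this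
    exact (h1.mul_const _).add (((hasDerivAt_id (1 : ℝ)).sub_const 1).mul_const I)
  have := hmin.hasDerivAt_eq_zero hd
  linarith

lemma entF_eq (hC : CC C) (hy : Pos C y) : entF (limDens 0 (-y) C) = Real.log (Z C y) + N := by
  have hZ := Z_pos hC hy
  unfold entF
  rw [← Z_eq hC.closed.measurableSet]
  have e : ∫ x, limDens 0 (-y) C x * Real.log (limDens 0 (-y) C x) = -(N * Z C y) := by
    rw [← mean hC hy, ← integral_neg]
    congr 1
    ext z
    rw [limDens_eq]
    by_cases hz : z ∈ C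
    · simp only [indicator_of_mem hz, Real.log_exp]
      ring
    · simp [indicator_of_notMem hz]
  rw [e]
  field_simp
  ring

theorem stmtLoss : StmtLoss := by
  intro δ N hN C hC y hy
  have hent := entF_eq hC hy
  obtain ⟨a, ha, h⟩ := hy
  have h1 := Vale.Agent.P254.X.Loss.DD_limDens_loss hN Matrix.PosSemidef.zero (c := -y)
    hC.closed hC.conv hC.int (b := 0) ha
    (fun z hz => by
      have := h z hz
      rw [neg_dotProduct]; linarith)
  unfold DD at h1
  rw [hent] at h1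
  unfold cov
  linarith

end Vale.Agent.P248.NS.T2
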