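import Vale.Agent.P248.NS.Defs
import Vale.Agent.P248.MC.Hom

/-! # P248/NS, block T2: `stmtLoss : StmtLoss` and `stmtScale : StmtScale` (helper618), from the
parallel development `MC/Hom.lean`. -/

open MeasureTheory Set Matrix Filter Topology

namespace Vale.Agent.P248.NS.T2b618

open Vale.Agent.P248.NS

variable {N : ℕ} {C : Set (Fin N → ℝ)} {y : Fin N → ℝ}

theorem pos_iff : Pos C y ↔ MC.Pos C y := by
  unfold Pos MC.Pos
  simp only [dotProduct_comm y]

theorem cc_pcone (h : CC C) : MC.PCone C where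
  closed := h.closed
  convex := h.conv
  smul := fun t ht x hx => h.cone x hx t ht
  int := h.int
  ptd := by
    obtain ⟨y, a, ha, hy⟩ := h.pos
    exact ⟨y, a, ha, fun x hx => by rw [dotProduct_comm]; exact hy x hx⟩

theorem Z_eq (C : Set (Fin N → ℝ)) (y : Fin N → ℝ) : Z C y = MC.Z C y := by
  unfold Z MC.Z
  simp only [dotProduct_comm y]

theorem cov_eq (h : CC C) (y : Fin N → ℝ) : cov C y = MC.Cv C y := MC.covF_eq (cc_pcone h) y

theorem stmtScale : StmtScale := by
  intro N C hC y hy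
  rw [Z_eq]
  refine ⟨MC.Z_pos (cc_pcone hC) (pos_iff.1 hy), fun s hs => ?_⟩
  rw [Z_eq, MC.Z_smul (cc_pcone hC) y hs]

/-- **T2**: the loss inequality in terms of `Z` -/
theorem stmtLoss : StmtLoss := by
  intro δ N hN C hC y hy
  have hV := cc_pcone hC
  have hy' := pos_iff.1 hy
  obtain ⟨a, ha, hdec⟩ := id hy
  have hdec' : ∀ x ∈ C, (-y) ⬝ᵥ x ≤ 0 - a * ‖x‖ := fun x hx => by
    have := hdec x hx
    rw [neg_dotProduct]
    linarith
  have h := Vale.Agent.P254.X.Loss.DD_limDens_loss hN Matrix.PosSemidef.zero hV.closed hV.convex hV.int ha hdec'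
  unfold P254.R304.DD at h
  rw [MC.entF_eq hV hy'] at h
  rw [Z_eq]
  unfold cov
  linarith

end Vale.Agent.P248.NS.T2b618
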