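import Vale.Agent.P248.NS.Defs
import Vale.Agent.P248.MC.SecDer700

/-! # P248/NS, block T3: second differences of `log Z` (helper700). -/

open MeasureTheory Set Matrix Filter Topology Metric

namespace Vale.Agent.P248.NS.T3

open Vale.Agent.P254.R304
open Vale.Agent.P248.MC.SD700

variable {n : ℕ}

theorem limDens_eq (C : Set (Fin n → ℝ)) (y : Fin n → ℝ) : limDens 0 (-y) C = den C y := by
  unfold limDens den
  congr 1
  ext x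
  unfold tilt
  congr 1
  simp [Matrix.zero_mulVec, neg_dotProduct]

/-- cubic Taylor bound of the exponential from above -/
theorem exp_cubic (u : ℝ) : Real.exp u ≤ 1 + u + u ^ 2 / 2 + |u| ^ 3 * Real.exp |u| := by
  have h0 : 0 ≤ |u| ^ 3 * Real.exp |u| := by positivity
  rcases le_or_gt 0 u with hu | hu
  · rw [abs_of_nonneg hu]
    -- f(u) = 1 + u + u²/2 + u³ e^u - e^u ≥ 0 on u ≥ 0
    by_cases h1 : u ≤ 1
    · have h2 := Real.exp_bound' hu h1 (n := 3) (by norm_num)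
      simp only [Finset.sum_range_succ, Finset.sum_range_zero, Nat.factorial] at h2
      norm_num at h2
      have h3 : u ^ 3 * 1 ≤ u ^ 3 * Real.exp u :=
        mul_le_mul_of_nonneg_left (Real.one_le_exp hu) (by positivity)
      have h4 : 0 ≤ u ^ 3 := by positivity
      nlinarith
    · push Not at h1
      have h2 : 1 ≤ u ^ 3 := one_le_pow₀ h1.le
      have h3 : 1 * Real.exp u ≤ u ^ 3 * Real.exp u := mul_le_mul_of_nonneg_right h2 (Real.exp_pos u).le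
      nlinarith [sq_nonneg u]
  · -- u < 0 : e^u ≤ 1 + u + u²/2
    have h1 : Real.exp u ≤ 1 + u + u ^ 2 / 2 := by
      have hmono : AntitoneOn (fun x : ℝ => 1 + x + x ^ 2 / 2 - Real.exp x) (Iic 0) := by
        have hd : ∀ x : ℝ, HasDerivAt (fun x : ℝ => 1 + x + x ^ 2 / 2 - Real.exp x) (1 + x - Real.exp x) x := by
          intro x
          have h := (((hasDerivAt_id x).const_add 1).add (((hasDerivAt_id x).pow 2).div_const 2)).sub (Real.hasDerivAt_exp x)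
          refine h.congr_deriv ?_
          simp only [id]
          ring
        refine antitoneOn_of_deriv_nonpos (convex_Iic 0) ?_ ?_ ?_
        · exact fun x _ => (hd x).continuousAt.continuousWithinAt
        · exact fun x _ => (hd x).differentiableAt.differentiableWithinAt
        · intro x _
          rw [(hd x).deriv]
          have := Real.add_one_le_exp x
          linarith
      have h2 := hmono (mem_Iic.2 hu.le) (mem_Iic.2 le_rfl) hu.le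
      simp only [Real.exp_zero] at h2
      norm_num at h2
      linarith
    linarith

theorem Z_eq (C : Set (Fin n → ℝ)) (y : Fin n → ℝ) : Z C y = J C (fun _ => 1) y := by
  unfold Z Vale.Agent.P248.MC.SD700.J
  simp

/-- expansion of `Z (y + t η)` up to third order -/
theorem Z_up {C : Set (Fin n → ℝ)} (hC : MeasurableSet C) {y η : Fin n → ℝ} {a : ℝ} (ha : 0 < a)
    (hdec : ∀ x ∈ C, a * ‖x‖ ≤ y ⬝ᵥ x) :
    ∃ K t0 : ℝ, 0 ≤ K ∧ 0 < t0 ∧ ∀ t : ℝ, |t| < t0 →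
      Z C (y + t • η) ≤ Z C y - t * J C (fun x => 1 * (η ⬝ᵥ x)) y
        + t ^ 2 / 2 * J C (fun x => 1 * (η ⬝ᵥ x) * (η ⬝ᵥ x)) y + K * |t| ^ 3 := by
  have hnb : 0 ≤ (n : ℝ) * ‖η‖ := by positivity
  set t0 : ℝ := (a / 2) / (n * ‖η‖ + 1) with ht0
  have ht00 : 0 < t0 := by rw [ht0]; positivity
  have hφ3 : PolyGrowth (fun x : Fin n → ℝ => |η ⬝ᵥ x| ^ 3) := by
    obtain ⟨hm, A, N, hA⟩ := (pg_dot η).mul ((pg_dot η).mul (pg_dot η))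
    refine ⟨?_, A, N, fun x => ?_⟩
    · refine Continuous.aestronglyMeasurable ?_
      simp only [dotProduct]
      fun_prop
    · have := hA x
      have e : |(η ⬝ᵥ x) * ((η ⬝ᵥ x) * (η ⬝ᵥ x))| = |η ⬝ᵥ x| ^ 3 := by
        rw [abs_mul, abs_mul]; ring
      rw [e] at this
      rwa [abs_of_nonneg (by positivity)]
  have ha2 : 0 < a / 2 := by positivity
  have hK : Integrable fun x : Fin n → ℝ => |(|η ⬝ᵥ x| ^ 3)| * Real.exp (-(a / 2 * ‖x‖)) := pg_integrable ha2 hφ3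
  set K : ℝ := ∫ x in C, |(|η ⬝ᵥ x| ^ 3)| * Real.exp (-(a / 2 * ‖x‖)) with hKd
  refine ⟨K, t0, integral_nonneg fun x => by positivity, ht00, fun t ht => ?_⟩
  have i0 := integrable_J hC ha hdec pg_one
  have i1 := integrable_J hC ha hdec (pg_one.mul (pg_dot η))
  have i2 := integrable_J hC ha hdec ((pg_one.mul (pg_dot η)).mul (pg_dot η))
  have htn : |t| * (n * ‖η‖) ≤ a / 2 := by
    have h1 : |t| * (n * ‖η‖) ≤ t0 * (n * ‖η‖) := mul_le_mul_of_nonneg_right ht.le hnb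
    have h2 : t0 * (n * ‖η‖) ≤ a / 2 := by
      rw [ht0, div_mul_eq_mul_div, div_le_iff₀ (by positivity)]
      nlinarith
    linarith
  have hline : ∀ x ∈ C, a / 2 * ‖x‖ ≤ (y + t • η) ⬝ᵥ x := by
    intro x hx
    refine le_trans ?_ (dec_line hdec t hx)
    exact mul_le_mul_of_nonneg_right (by linarith) (norm_nonneg x)
  have iL := integrable_J hC ha2 hline pg_one
  unfold Z Vale.Agent.P248.MC.SD700.J
  have hpt : ∀ x ∈ C, Real.exp (-((y + t • η) ⬝ᵥ x)) ≤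
      1 * Real.exp (-(y ⬝ᵥ x)) - t * (1 * (η ⬝ᵥ x) * Real.exp (-(y ⬝ᵥ x)))
        + t ^ 2 / 2 * (1 * (η ⬝ᵥ x) * (η ⬝ᵥ x) * Real.exp (-(y ⬝ᵥ x)))
        + |t| ^ 3 * (|(|η ⬝ᵥ x| ^ 3)| * Real.exp (-(a / 2 * ‖x‖))) := by
    intro x hx
    have e1 : Real.exp (-((y + t • η) ⬝ᵥ x)) = Real.exp (-(t * (η ⬝ᵥ x))) * Real.exp (-(y ⬝ᵥ x)) := by
      rw [← Real.exp_add]
      congr 1
      rw [add_dotProduct, smul_dotProduct, smul_eq_mul]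
      ring
    have h1 := exp_cubic (-(t * (η ⬝ᵥ x)))
    rw [abs_neg] at h1
    have h2 : Real.exp |t * (η ⬝ᵥ x)| * Real.exp (-(y ⬝ᵥ x)) ≤ Real.exp (-(a / 2 * ‖x‖)) := by
      rw [← Real.exp_add]
      refine Real.exp_le_exp.2 ?_
      have h3 : |t * (η ⬝ᵥ x)| ≤ a / 2 * ‖x‖ := by
        rw [abs_mul]
        calc |t| * |η ⬝ᵥ x| ≤ |t| * (n * ‖η‖ * ‖x‖) := mul_le_mul_of_nonneg_left (dot_le η x) (abs_nonneg t)
          _ = (|t| * (n * ‖η‖)) * ‖x‖ := by ring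
          _ ≤ a / 2 * ‖x‖ := mul_le_mul_of_nonneg_right htn (norm_nonneg x)
      have h4 := hdec x hx
      linarith
    have h3 : |t * (η ⬝ᵥ x)| ^ 3 = |t| ^ 3 * |η ⬝ᵥ x| ^ 3 := by rw [abs_mul]; ring
    have hp := Real.exp_pos (-(y ⬝ᵥ x))
    rw [e1, abs_of_nonneg (by positivity : (0:ℝ) ≤ |η ⬝ᵥ x| ^ 3)]
    calc Real.exp (-(t * (η ⬝ᵥ x))) * Real.exp (-(y ⬝ᵥ x))
        ≤ (1 + -(t * (η ⬝ᵥ x)) + (-(t * (η ⬝ᵥ x))) ^ 2 / 2 + |t * (η ⬝ᵥ x)| ^ 3 * Real.exp |t * (η ⬝ᵥ x)|)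
            * Real.exp (-(y ⬝ᵥ x)) := mul_le_mul_of_nonneg_right h1 hp.le
      _ = 1 * Real.exp (-(y ⬝ᵥ x)) - t * (1 * (η ⬝ᵥ x) * Real.exp (-(y ⬝ᵥ x)))
        + t ^ 2 / 2 * (1 * (η ⬝ᵥ x) * (η ⬝ᵥ x) * Real.exp (-(y ⬝ᵥ x)))
        + (|t| ^ 3 * |η ⬝ᵥ x| ^ 3) * (Real.exp |t * (η ⬝ᵥ x)| * Real.exp (-(y ⬝ᵥ x))) := by
          rw [h3]; ring
      _ ≤ _ := by
          have h5 : (|t| ^ 3 * |η ⬝ᵥ x| ^ 3) * (Real.exp |t * (η ⬝ᵥ x)| * Real.exp (-(y ⬝ᵥ x))) ≤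
              (|t| ^ 3 * |η ⬝ᵥ x| ^ 3) * Real.exp (-(a / 2 * ‖x‖)) :=
            mul_le_mul_of_nonneg_left h2 (by positivity)
          linarith
  have iR : IntegrableOn (fun x => (((1 * Real.exp (-(y ⬝ᵥ x)) - t * (1 * (η ⬝ᵥ x) * Real.exp (-(y ⬝ᵥ x))))
        + t ^ 2 / 2 * (1 * (η ⬝ᵥ x) * (η ⬝ᵥ x) * Real.exp (-(y ⬝ᵥ x))))
        + |t| ^ 3 * (|(|η ⬝ᵥ x| ^ 3)| * Real.exp (-(a / 2 * ‖x‖))))) C :=
    ((i0.sub (i1.const_mul t)).add (i2.const_mul (t ^ 2 / 2))).add ((hK.integrableOn).const_mul (|t| ^ 3))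
  calc ∫ x in C, Real.exp (-((y + t • η) ⬝ᵥ x))
      ≤ ∫ x in C, (((1 * Real.exp (-(y ⬝ᵥ x)) - t * (1 * (η ⬝ᵥ x) * Real.exp (-(y ⬝ᵥ x))))
        + t ^ 2 / 2 * (1 * (η ⬝ᵥ x) * (η ⬝ᵥ x) * Real.exp (-(y ⬝ᵥ x))))
        + |t| ^ 3 * (|(|η ⬝ᵥ x| ^ 3)| * Real.exp (-(a / 2 * ‖x‖)))) :=
        setIntegral_mono_on (by simpa using iL) iR hC hpt
    _ = _ := by
        have e2 : (fun x : Fin n → ℝ => (((1 * Real.exp (-(y ⬝ᵥ x)) - t * (1 * (η ⬝ᵥ x) * Real.exp (-(y ⬝ᵥ x))))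
            + t ^ 2 / 2 * (1 * (η ⬝ᵥ x) * (η ⬝ᵥ x) * Real.exp (-(y ⬝ᵥ x))))
            + |t| ^ 3 * (|(|η ⬝ᵥ x| ^ 3)| * Real.exp (-(a / 2 * ‖x‖))))) =
            ((((fun x : Fin n → ℝ => 1 * Real.exp (-(y ⬝ᵥ x))) - (fun x => t * (1 * (η ⬝ᵥ x) * Real.exp (-(y ⬝ᵥ x)))))
            + (fun x => t ^ 2 / 2 * (1 * (η ⬝ᵥ x) * (η ⬝ᵥ x) * Real.exp (-(y ⬝ᵥ x)))))
            + (fun x => |t| ^ 3 * (|(|η ⬝ᵥ x| ^ 3)| * Real.exp (-(a / 2 * ‖x‖))))) := rfl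
        have j1 : IntegrableOn (fun x : Fin n → ℝ => t * (1 * (η ⬝ᵥ x) * Real.exp (-(y ⬝ᵥ x)))) C := i1.const_mul t
        have j2 : IntegrableOn (fun x : Fin n → ℝ => t ^ 2 / 2 * (1 * (η ⬝ᵥ x) * (η ⬝ᵥ x) * Real.exp (-(y ⬝ᵥ x)))) C :=
          i2.const_mul (t ^ 2 / 2)
        have j3 : IntegrableOn (fun x : Fin n → ℝ => |t| ^ 3 * (|(|η ⬝ᵥ x| ^ 3)| * Real.exp (-(a / 2 * ‖x‖)))) C :=
          (hK.integrableOn).const_mul (|t| ^ 3)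
        rw [e2, integral_add' ((i0.sub j1).add j2) j3,
          integral_add' (i0.sub j1) j2, integral_sub' i0 j1, integral_const_mul, integral_const_mul,
          integral_const_mul, integral_const_mul, ← hKd]
        ring

/-- product of two expansions -/
theorem prod_up {Z0 J1 J2 K t P Q : ℝ} (hP0 : 0 ≤ P) (hQ0 : 0 ≤ Q) (_hZ : 0 ≤ Z0) (hJ2 : 0 ≤ J2) (hK : 0 ≤ K)
    (ht : |t| ≤ 1) (hP : P ≤ Z0 - t * J1 + t ^ 2 / 2 * J2 + K * |t| ^ 3)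
    (hQ : Q ≤ Z0 + t * J1 + t ^ 2 / 2 * J2 + K * |t| ^ 3) :
    P * Q ≤ Z0 ^ 2 + t ^ 2 * (Z0 * J2 - J1 ^ 2) + (2 * K * Z0 + (J2 / 2 + K) ^ 2) * |t| ^ 3 := by
  have h1 : P * Q ≤ (Z0 - t * J1 + t ^ 2 / 2 * J2 + K * |t| ^ 3) * (Z0 + t * J1 + t ^ 2 / 2 * J2 + K * |t| ^ 3) :=
    mul_le_mul hP hQ hQ0 (hP0.trans hP)
  have ht0 := abs_nonneg t
  have e1 : (Z0 - t * J1 + t ^ 2 / 2 * J2 + K * |t| ^ 3) * (Z0 + t * J1 + t ^ 2 / 2 * J2 + K * |t| ^ 3)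
      = Z0 ^ 2 + t ^ 2 * (Z0 * J2 - J1 ^ 2) + 2 * K * Z0 * |t| ^ 3 + (t ^ 2 / 2 * J2 + K * |t| ^ 3) ^ 2 := by ring
  have h2 : t ^ 2 / 2 * J2 + K * |t| ^ 3 ≤ |t| ^ 2 * (J2 / 2 + K) := by
    have h3 : |t| ^ 3 ≤ |t| ^ 2 := by
      have : |t| ^ 3 = |t| ^ 2 * |t| := by ring
      rw [this]
      exact mul_le_of_le_one_right (by positivity) ht
    have h4 : t ^ 2 = |t| ^ 2 := (sq_abs t).symm
    have h5 : K * |t| ^ 3 ≤ K * |t| ^ 2 := mul_le_mul_of_nonneg_left h3 hK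
    rw [h4]
    linarith
  have h3 : (t ^ 2 / 2 * J2 + K * |t| ^ 3) ^ 2 ≤ (|t| ^ 2 * (J2 / 2 + K)) ^ 2 :=
    pow_le_pow_left₀ (by positivity) h2 2
  have h4 : (|t| ^ 2 * (J2 / 2 + K)) ^ 2 ≤ (J2 / 2 + K) ^ 2 * |t| ^ 3 := by
    have e : (|t| ^ 2 * (J2 / 2 + K)) ^ 2 = (J2 / 2 + K) ^ 2 * |t| ^ 3 * |t| := by ring
    rw [e]
    exact mul_le_of_le_one_right (by positivity) ht
  rw [e1] at h1
  linarith

theorem stmtDiff : StmtDiff := by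
  intro N C hC y hy η
  obtain ⟨a, ha, hdec⟩ := hy
  have hm := hC.closed.measurableSet
  obtain ⟨K, t1, hK, ht1, hup⟩ := Z_up (η := η) hm ha hdec
  have hpos : 0 < Z C y := by rw [Z_eq]; exact J_pos hm hC.int ha hdec
  set J1 := J C (fun x => 1 * (η ⬝ᵥ x)) y with hJ1
  set J2 := J C (fun x => 1 * (η ⬝ᵥ x) * (η ⬝ᵥ x)) y with hJ2
  have hJ20 : 0 ≤ J2 := by
    rw [hJ2]
    refine integral_nonneg fun x => ?_
    show 0 ≤ 1 * (η ⬝ᵥ x) * (η ⬝ᵥ x) * Real.exp (-(y ⬝ᵥ x))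
    have : 0 ≤ (η ⬝ᵥ x) * (η ⬝ᵥ x) := mul_self_nonneg _
    have := mul_nonneg this (Real.exp_pos (-(y ⬝ᵥ x))).le
    linarith
  refine ⟨(2 * K * Z C y + (J2 / 2 + K) ^ 2) / Z C y ^ 2, min t1 1, lt_min ht1 one_pos, fun t ht => ?_⟩
  have hta : |t| < t1 := ht.trans_le (min_le_left _ _)
  have htb : |t| ≤ 1 := (ht.trans_le (min_le_right _ _)).le
  have h1 := hup t hta
  have h2 := hup (-t) (by rwa [abs_neg])
  rw [abs_neg] at h2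
  have e0 : y + -t • η = y - t • η := by rw [neg_smul, sub_eq_add_neg]
  rw [e0] at h2
  have e1 : (-t) ^ 2 = t ^ 2 := by ring
  rw [e1] at h2
  have h3 : Z C (y - t • η) ≤ Z C y + t * J1 + t ^ 2 / 2 * J2 + K * |t| ^ 3 := by linarith
  have hZnn : ∀ y, 0 ≤ Z C y := fun y => integral_nonneg fun x => (Real.exp_pos _).le
  have key := prod_up (hZnn _) (hZnn _) hpos.le hJ20 hK htb h1 h3
  refine key.trans (le_of_eq ?_)
  have hq : η ⬝ᵥ cov C y *ᵥ η = J2 / Z C y - (J1 / Z C y) ^ 2 := by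
    unfold cov
    rw [limDens_eq, quad_cov hm ha hdec η, Z_eq]
  rw [hq]
  have hne := hpos.ne'
  field_simp

end Vale.Agent.P248.NS.T3
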