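import Vale.Agent.P248.NS.Defs

/-!
P248, near-sharp general Mahler bound, block T5 (helper792): existence of a minimum point.
-/

open MeasureTheory Set Matrix Filter Topology Metric
open scoped ENNReal

namespace Vale.Agent.P248.NS.T5

variable {N : ℕ}

theorem abs_dot_le (u z : Fin N → ℝ) : |u ⬝ᵥ z| ≤ (∑ i, |u i|) * ‖z‖ := by
  unfold dotProduct
  refine (Finset.abs_sum_le_sum_abs _ _).trans ?_
  rw [Finset.sum_mul]
  refine Finset.sum_le_sum (fun i _ => ?_)
  rw [abs_mul]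
  refine mul_le_mul_of_nonneg_left ?_ (abs_nonneg _)
  rw [← Real.norm_eq_abs]
  exact norm_le_pi_norm z i

theorem int_exp {a : ℝ} (ha : 0 < a) : Integrable fun z : Fin N → ℝ => Real.exp (-(a * ‖z‖)) := by
  have := Vale.Agent.P254.R304.integrable_poly_exp N ha 0
  simpa using this

theorem dot_cont (y : Fin N → ℝ) : Continuous fun z : Fin N → ℝ => y ⬝ᵥ z := by
  unfold dotProduct
  exact continuous_finsetSum _ (fun i _ => continuous_const.mul (continuous_apply i))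

theorem dot_cont' (z : Fin N → ℝ) : Continuous fun y : Fin N → ℝ => y ⬝ᵥ z := by
  unfold dotProduct
  exact continuous_finsetSum _ (fun i _ => (continuous_apply i).mul continuous_const)

theorem dot_cont2 : Continuous fun p : (Fin N → ℝ) × (Fin N → ℝ) => p.1 ⬝ᵥ p.2 := by
  unfold dotProduct
  exact continuous_finsetSum _ (fun i _ => ((continuous_apply i).comp continuous_fst).mul
    ((continuous_apply i).comp continuous_snd))

theorem exp_cont (y : Fin N → ℝ) : Continuous fun z : Fin N → ℝ => Real.exp (-(y ⬝ᵥ z)) :=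
  Real.continuous_exp.comp (dot_cont y).neg

theorem int_Z {C : Set (Fin N → ℝ)} (hC : IsClosed C) {y : Fin N → ℝ} (hy : Pos C y) :
    IntegrableOn (fun z => Real.exp (-(y ⬝ᵥ z))) C := by
  obtain ⟨a, ha, h⟩ := hy
  refine Integrable.mono' (int_exp ha).integrableOn (exp_cont y).aestronglyMeasurable ?_
  refine (ae_restrict_iff' hC.measurableSet).2 (Eventually.of_forall fun z hz => ?_)
  rw [Real.norm_of_nonneg (Real.exp_pos _).le]
  exact Real.exp_le_exp.2 (by linarith [h z hz])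

theorem mem_dual {C : Set (Fin N → ℝ)} {y : Fin N → ℝ} (hy : Pos C y) : y ∈ dual C := by
  obtain ⟨a, ha, h⟩ := hy
  intro z hz
  exact (by positivity : (0 : ℝ) ≤ a * ‖z‖).trans (h z hz)

theorem pos_smul {C : Set (Fin N → ℝ)} {y : Fin N → ℝ} (hy : Pos C y) {t : ℝ} (ht : 0 < t) :
    Pos C (t • y) := by
  obtain ⟨a, ha, h⟩ := hy
  refine ⟨t * a, by positivity, fun z hz => ?_⟩
  rw [smul_dotProduct, smul_eq_mul, mul_assoc]
  exact mul_le_mul_of_nonneg_left (h z hz) ht.le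

/-- a finite Laplace integral at a point of the dual cone forces positivity -/
theorem blow {C : Set (Fin N → ℝ)} (hC : CC C) {w : Fin N → ℝ} (hw : w ∈ dual C)
    (hfin : ∫⁻ z in C, ENNReal.ofReal (Real.exp (-(w ⬝ᵥ z))) ≠ ∞) : Pos C w := by
  by_contra hcon
  have hex : ∃ v ∈ C, ‖v‖ = 1 ∧ w ⬝ᵥ v = 0 := by
    by_cases hS : (C ∩ sphere (0 : Fin N → ℝ) 1).Nonempty
    · have hK : IsCompact (C ∩ sphere (0 : Fin N → ℝ) 1) :=
        (isCompact_sphere 0 1).inter_left hC.closed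
      obtain ⟨v, hv, hmin⟩ := hK.exists_isMinOn hS (dot_cont w).continuousOn
      refine ⟨v, hv.1, by simpa using hv.2, ?_⟩
      by_contra hne
      have hpos : 0 < w ⬝ᵥ v := lt_of_le_of_ne (hw v hv.1) (Ne.symm hne)
      apply hcon
      refine ⟨w ⬝ᵥ v, hpos, fun z hz => ?_⟩
      by_cases hz0 : z = 0
      · simp [hz0]
      · have hn : 0 < ‖z‖ := norm_pos_iff.2 hz0
        have h1 : (‖z‖⁻¹) • z ∈ C ∩ sphere (0 : Fin N → ℝ) 1 :=
          ⟨hC.cone z hz _ (by positivity), by simp [norm_smul, hn.ne']⟩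
        have h2 : w ⬝ᵥ v ≤ w ⬝ᵥ ((‖z‖⁻¹) • z) := hmin h1
        rw [dotProduct_smul, smul_eq_mul, le_inv_mul_iff₀ hn] at h2
        linarith
    · exfalso
      apply hcon
      refine ⟨1, one_pos, fun z hz => ?_⟩
      have hz0 : z = 0 := by
        by_contra hz0
        have hn : 0 < ‖z‖ := norm_pos_iff.2 hz0
        exact hS ⟨(‖z‖⁻¹) • z, hC.cone z hz _ (by positivity), by simp [norm_smul, hn.ne']⟩
      simp [hz0]
  obtain ⟨v, hv, hv1, hwv⟩ := hex
  obtain ⟨p, hp⟩ := hC.int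
  obtain ⟨r, hr, hball⟩ := Metric.isOpen_iff.1 isOpen_interior p hp
  have hball' : ball p r ⊆ C := hball.trans interior_subset
  have add_mem : ∀ a ∈ C, ∀ b ∈ C, a + b ∈ C := by
    intro a ha b hb
    have h1 := hC.conv ha hb (by norm_num : (0 : ℝ) ≤ 1 / 2) (by norm_num : (0 : ℝ) ≤ 1 / 2)
      (by norm_num)
    have h2 := hC.cone _ h1 2 (by norm_num)
    rwa [smul_add, smul_smul, smul_smul, show (2 : ℝ) * (1 / 2) = 1 by norm_num, one_smul,
      one_smul] at h2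
  set Bk : ℕ → Set (Fin N → ℝ) := fun k => ball (p + ((k : ℝ) * (2 * r)) • v) r with hBk
  have hstep : ∀ k, ∀ z ∈ Bk k, z - ((k : ℝ) * (2 * r)) • v ∈ ball p r := by
    intro k z hz
    rw [hBk, mem_ball, dist_eq_norm] at hz
    rw [mem_ball, dist_eq_norm]
    rwa [show z - ((k : ℝ) * (2 * r)) • v - p = z - (p + ((k : ℝ) * (2 * r)) • v) by abel]
  have hsub : ∀ k, Bk k ⊆ C := by
    intro k z hz
    have h1 := hball' (hstep k z hz)
    have h2 := hC.cone v hv ((k : ℝ) * (2 * r)) (by positivity)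
    have h3 := add_mem _ h1 _ h2
    rwa [sub_add_cancel] at h3
  have hdisj : Pairwise (Function.onFun Disjoint Bk) := by
    intro k l hkl
    refine Metric.ball_disjoint_ball ?_
    rw [dist_add_left, dist_eq_norm, ← sub_smul, norm_smul, hv1, mul_one, ← sub_mul, norm_mul,
      Real.norm_of_nonneg (by positivity : (0 : ℝ) ≤ 2 * r), Real.norm_eq_abs]
    have h1 : (1 : ℝ) ≤ |(k : ℝ) - l| := by
      have h2 : (k : ℤ) - l ≠ 0 := by
        intro h
        apply hkl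
        omega
      have h3 := Int.one_le_abs h2
      have h4 : ((1 : ℤ) : ℝ) ≤ ((|(k : ℤ) - l| : ℤ) : ℝ) := by exact_mod_cast h3
      rw [Int.cast_abs] at h4
      simpa using h4
    nlinarith
  set M : ℝ := (∑ i, |w i|) * (‖p‖ + r) with hM
  have hlow : ∀ z ∈ ⋃ k, Bk k, ENNReal.ofReal (Real.exp (-M)) ≤
      ENNReal.ofReal (Real.exp (-(w ⬝ᵥ z))) := by
    intro z hz
    obtain ⟨k, hk⟩ := mem_iUnion.1 hz
    refine ENNReal.ofReal_le_ofReal (Real.exp_le_exp.2 ?_)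
    have h1 := hstep k z hk
    have h2 : w ⬝ᵥ z = w ⬝ᵥ (z - ((k : ℝ) * (2 * r)) • v) := by
      rw [dotProduct_sub, dotProduct_smul, hwv]; simp
    have h3 := abs_dot_le w (z - ((k : ℝ) * (2 * r)) • v)
    have h4 : ‖z - ((k : ℝ) * (2 * r)) • v‖ ≤ ‖p‖ + r := by
      rw [mem_ball, dist_eq_norm] at h1
      have h5 := norm_add_le p (z - ((k : ℝ) * (2 * r)) • v - p)
      rw [add_sub_cancel] at h5
      linarith
    have h5 : (∑ i, |w i|) * ‖z - ((k : ℝ) * (2 * r)) • v‖ ≤ M :=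
      mul_le_mul_of_nonneg_left h4 (Finset.sum_nonneg fun i _ => abs_nonneg _)
    have h6 := le_abs_self (w ⬝ᵥ (z - ((k : ℝ) * (2 * r)) • v))
    rw [h2]
    linarith
  have hvol : volume (⋃ k, Bk k) = ∞ := by
    rw [measure_iUnion hdisj (fun k => measurableSet_ball)]
    have h1 : ∀ k, volume (Bk k) = volume (ball (0 : Fin N → ℝ) r) := fun k =>
      Measure.addHaar_ball_center _ _ _
    simp only [h1]
    exact ENNReal.tsum_const_eq_top_of_ne_zero (measure_ball_pos _ _ hr).ne'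
  apply hfin
  rw [eq_top_iff]
  calc (∞ : ℝ≥0∞) = ENNReal.ofReal (Real.exp (-M)) * volume (⋃ k, Bk k) := by
        rw [hvol, ENNReal.mul_top]
        simpa using Real.exp_pos (-M)
    _ = ∫⁻ _ in ⋃ k, Bk k, ENNReal.ofReal (Real.exp (-M)) := (setLIntegral_const _ _).symm
    _ ≤ ∫⁻ z in ⋃ k, Bk k, ENNReal.ofReal (Real.exp (-(w ⬝ᵥ z))) :=
        setLIntegral_mono' (MeasurableSet.iUnion fun k => measurableSet_ball) hlow
    _ ≤ ∫⁻ z in C, ENNReal.ofReal (Real.exp (-(w ⬝ᵥ z))) :=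
        lintegral_mono_set (iUnion_subset hsub)

theorem Z_cont {C : Set (Fin N → ℝ)} (hC : IsClosed C) {y : Fin N → ℝ} (hy : Pos C y) :
    ContinuousAt (Z C) y := by
  obtain ⟨a, ha, h⟩ := hy
  have hb : Integrable (fun z : Fin N → ℝ => Real.exp (-(a / 2 * ‖z‖))) (volume.restrict C) :=
    (int_exp (half_pos ha)).integrableOn
  refine continuousAt_of_dominated (bound := fun z => Real.exp (-(a / 2 * ‖z‖))) ?_ ?_ hb ?_
  · exact Eventually.of_forall fun y' => (exp_cont y').aestronglyMeasurable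
  · have hc : Continuous fun y' : Fin N → ℝ => ∑ i, |y' i - y i| :=
      continuous_finsetSum _ (fun i _ => ((continuous_apply i).sub continuous_const).abs)
    have h0 : ∀ᶠ y' in 𝓝 y, ∑ i, |y' i - y i| < a / 2 := by
      refine hc.continuousAt.eventually (Iio_mem_nhds ?_)
      simpa using half_pos ha
    filter_upwards [h0] with y' hy'
    refine (ae_restrict_iff' hC.measurableSet).2 (Eventually.of_forall fun z hz => ?_)
    rw [Real.norm_of_nonneg (Real.exp_pos _).le]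
    refine Real.exp_le_exp.2 ?_
    have h1 := h z hz
    have h2 : y' ⬝ᵥ z = y ⬝ᵥ z + (y' - y) ⬝ᵥ z := by rw [sub_dotProduct]; ring
    have h3 := neg_abs_le ((y' - y) ⬝ᵥ z)
    have h4 := abs_dot_le (y' - y) z
    simp only [Pi.sub_apply] at h4
    have h5 := mul_le_mul_of_nonneg_right hy'.le (norm_nonneg z)
    rw [h2]
    linarith
  · refine Eventually.of_forall fun z => ?_
    exact (Real.continuous_exp.comp (dot_cont' z).neg).continuousAt

theorem pos_of_lim {C : Set (Fin N → ℝ)} (hC : CC C) {yk : ℕ → Fin N → ℝ} {y : Fin N → ℝ}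
    (hk : ∀ k, Pos C (yk k)) (hlim : Tendsto yk atTop (𝓝 y)) {B : ℝ}
    (hB : ∀ k, Z C (yk k) ≤ B) : Pos C y := by
  have ht : ∀ z, Tendsto (fun k => yk k ⬝ᵥ z) atTop (𝓝 (y ⬝ᵥ z)) := fun z =>
    ((dot_cont' z).tendsto y).comp hlim
  have hw : y ∈ dual C := fun z hz => ge_of_tendsto' (ht z) (fun k => mem_dual (hk k) z hz)
  refine blow hC hw (ne_of_lt ?_)
  have e1 : ∀ z, ENNReal.ofReal (Real.exp (-(y ⬝ᵥ z))) =
      liminf (fun k => ENNReal.ofReal (Real.exp (-(yk k ⬝ᵥ z)))) atTop := by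
    intro z
    refine (Tendsto.liminf_eq ?_).symm
    exact (ENNReal.continuous_ofReal.comp (Real.continuous_exp.comp continuous_neg)).continuousAt.tendsto.comp (ht z)
  have e2 : ∀ k, ∫⁻ z in C, ENNReal.ofReal (Real.exp (-(yk k ⬝ᵥ z))) ≤ ENNReal.ofReal B := by
    intro k
    rw [← ofReal_integral_eq_lintegral_ofReal (int_Z hC.closed (hk k))
      (Eventually.of_forall fun z => (Real.exp_pos _).le)]
    exact ENNReal.ofReal_le_ofReal (hB k)
  calc ∫⁻ z in C, ENNReal.ofReal (Real.exp (-(y ⬝ᵥ z)))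
      = ∫⁻ z in C, liminf (fun k => ENNReal.ofReal (Real.exp (-(yk k ⬝ᵥ z)))) atTop := by
        simp_rw [e1]
    _ ≤ liminf (fun k => ∫⁻ z in C, ENNReal.ofReal (Real.exp (-(yk k ⬝ᵥ z)))) atTop :=
        lintegral_liminf_le (fun k => (exp_cont (yk k)).measurable.ennreal_ofReal)
    _ ≤ ENNReal.ofReal B := liminf_le_of_frequently_le' (Frequently.of_forall e2)
    _ < ∞ := ENNReal.ofReal_lt_top

theorem stmtMin_of (h1 : StmtDual) (h2 : StmtScale) (h4 : StmtCrude) : StmtMin := by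
  intro N C hN hC x1 y1 hx1 hy1 ε hε hε1
  obtain ⟨hD, hI, hJ⟩ := h1 N C hC
  obtain ⟨hDD, hI2, hJ2⟩ := h1 N (dual C) hD
  have hx1P : Pos (dual C) x1 := hI x1 hx1
  have hy1D : Pos (dual (dual C)) y1 := hI2 y1 (hJ y1 hy1)
  obtain ⟨c, hc, hcr⟩ := h4 N C hN hC
  have hdot : ∀ x y, Pos (dual C) x → Pos C y → 0 < x ⬝ᵥ y := by
    intro x y hx hy
    have h0 : 0 ≤ x ⬝ᵥ y := mem_dual hx y (mem_dual hy)
    rcases h0.lt_or_eq with h | h
    · exact h
    · exfalso
      have h3 := hcr x y hx hy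
      rw [← h, zero_pow hN.ne', mul_zero] at h3
      linarith
  have hZC : ∀ y, Pos C y → 0 < Z C y := fun y hy => (h2 N C hC y hy).1
  have hZD : ∀ x, Pos (dual C) x → 0 < Z (dual C) x := fun x hx => (h2 N _ hD x hx).1
  have hNr : (0 : ℝ) < N := by exact_mod_cast hN
  have hN1 : (1 : ℝ) ≤ N := by exact_mod_cast hN
  -- homogeneity
  have hhom : ∀ x y, Pos (dual C) x → Pos C y → ∀ s t : ℝ, 0 < s → 0 < t →
      G C x1 y1 ε (s • x) (t • y) = G C x1 y1 ε x y := by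
    intro x y hx hy s t hs ht
    have a1 : Real.log (Z C (t • y)) = -(N * Real.log t) + Real.log (Z C y) := by
      rw [(h2 N C hC y hy).2 t ht, Real.log_mul (by positivity) (hZC y hy).ne', Real.log_inv,
        Real.log_pow]
    have a2 : Real.log (Z (dual C) (s • x)) = -(N * Real.log s) + Real.log (Z (dual C) x) := by
      rw [(h2 N _ hD x hx).2 s hs, Real.log_mul (by positivity) (hZD x hx).ne', Real.log_inv,
        Real.log_pow]
    have a3 : Real.log ((s • x) ⬝ᵥ (t • y)) = Real.log s + (Real.log t + Real.log (x ⬝ᵥ y)) := by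
      rw [smul_dotProduct, dotProduct_smul, smul_eq_mul, smul_eq_mul,
        Real.log_mul hs.ne' (mul_pos ht (hdot x y hx hy)).ne',
        Real.log_mul ht.ne' (hdot x y hx hy).ne']
    have a4 : Real.log (x1 ⬝ᵥ (t • y)) = Real.log t + Real.log (x1 ⬝ᵥ y) := by
      rw [dotProduct_smul, smul_eq_mul, Real.log_mul ht.ne' (hdot x1 y hx1P hy).ne']
    have a5 : Real.log ((s • x) ⬝ᵥ y1) = Real.log s + Real.log (x ⬝ᵥ y1) := by
      rw [smul_dotProduct, smul_eq_mul, Real.log_mul hs.ne' (hdot x y1 hx hy1).ne']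
    unfold G
    rw [a1, a2, a3, a4, a5]
    ring
  -- continuity
  have hGc : ∀ x y, Pos (dual C) x → Pos C y →
      ContinuousAt (fun p : (Fin N → ℝ) × (Fin N → ℝ) => G C x1 y1 ε p.1 p.2) (x, y) := by
    intro x y hx hy
    have b1 : ContinuousAt (fun p : (Fin N → ℝ) × (Fin N → ℝ) => Real.log (Z C p.2)) (x, y) :=
      ContinuousAt.log (ContinuousAt.comp (x := ((x, y) : (Fin N → ℝ) × (Fin N → ℝ)))
        (f := Prod.snd) (g := Z C) (Z_cont hC.closed hy) continuousAt_snd) (hZC y hy).ne'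
    have b2 : ContinuousAt (fun p : (Fin N → ℝ) × (Fin N → ℝ) => Real.log (Z (dual C) p.1))
        (x, y) :=
      ContinuousAt.log (ContinuousAt.comp (x := ((x, y) : (Fin N → ℝ) × (Fin N → ℝ)))
        (f := Prod.fst) (g := Z (dual C)) (Z_cont hD.closed hx) continuousAt_fst) (hZD x hx).ne'
    have b3 : ContinuousAt (fun p : (Fin N → ℝ) × (Fin N → ℝ) => Real.log (p.1 ⬝ᵥ p.2)) (x, y) :=
      ContinuousAt.log dot_cont2.continuousAt (hdot x y hx hy).ne'
    have b4 : ContinuousAt (fun p : (Fin N → ℝ) × (Fin N → ℝ) => Real.log (x1 ⬝ᵥ p.2)) (x, y) :=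
      ContinuousAt.log ((dot_cont x1).comp continuous_snd).continuousAt (hdot x1 y hx1P hy).ne'
    have b5 : ContinuousAt (fun p : (Fin N → ℝ) × (Fin N → ℝ) => Real.log (p.1 ⬝ᵥ y1)) (x, y) :=
      ContinuousAt.log ((dot_cont' y1).comp continuous_fst).continuousAt (hdot x y1 hx hy1).ne'
    exact ((b1.add b2).add (continuousAt_const.mul b3)).add (continuousAt_const.mul (b4.add b5))
  set g0 : ℝ := G C x1 y1 ε x1 y1 with hg0
  set A : Set ((Fin N → ℝ) × (Fin N → ℝ)) := {p | Pos (dual C) p.1 ∧ Pos C p.2 ∧ p.1 ⬝ᵥ y1 = 1 ∧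
    x1 ⬝ᵥ p.2 = 1 ∧ G C x1 y1 ε p.1 p.2 ≤ g0} with hA
  -- bounds on A
  set ℓ : ℝ := (Real.log c - g0) / ε with hℓ
  set Bc : ℝ := g0 - (Real.log c - Real.log (Z C y1)) - ((N : ℝ) - ε) * ℓ with hBc
  set Bd : ℝ := g0 - (Real.log c - Real.log (Z (dual C) x1)) - ((N : ℝ) - ε) * ℓ with hBd
  have hbd : ∀ p ∈ A, Z C p.2 ≤ Real.exp Bc ∧ Z (dual C) p.1 ≤ Real.exp Bd := by
    rintro ⟨x, y⟩ ⟨hx, hy, e1, e2, hG⟩
    simp only at hx hy e1 e2 hG ⊢
    have hpq := hdot x y hx hy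
    have c1 : Real.log c ≤ Real.log (Z C y) + Real.log (Z (dual C) x) + N * Real.log (x ⬝ᵥ y) := by
      have := Real.log_le_log hc (hcr x y hx hy)
      rwa [Real.log_mul (mul_pos (hZC y hy) (hZD x hx)).ne' (pow_pos hpq _).ne',
        Real.log_mul (hZC y hy).ne' (hZD x hx).ne', Real.log_pow] at this
    have c2 : Real.log c ≤ Real.log (Z C y1) + Real.log (Z (dual C) x) := by
      have := Real.log_le_log hc (hcr x y1 hx hy1)
      rwa [e1, one_pow, mul_one, Real.log_mul (hZC y1 hy1).ne' (hZD x hx).ne'] at this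
    have c3 : Real.log c ≤ Real.log (Z C y) + Real.log (Z (dual C) x1) := by
      have := Real.log_le_log hc (hcr x1 y hx1P hy)
      rwa [e2, one_pow, mul_one, Real.log_mul (hZC y hy).ne' (hZD x1 hx1P).ne'] at this
    have c4 : Real.log (Z C y) + Real.log (Z (dual C) x) + ((N : ℝ) - ε) * Real.log (x ⬝ᵥ y)
        ≤ g0 := by
      have := hG
      unfold G at this
      rw [e1, e2, Real.log_one] at this
      linarith
    have c5 : ℓ ≤ Real.log (x ⬝ᵥ y) := by
      rw [hℓ, div_le_iff₀ hε]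
      nlinarith
    have c6 : ((N : ℝ) - ε) * ℓ ≤ ((N : ℝ) - ε) * Real.log (x ⬝ᵥ y) :=
      mul_le_mul_of_nonneg_left c5 (by linarith)
    constructor
    · rw [← Real.log_le_iff_le_exp (hZC y hy)]
      linarith
    · rw [← Real.log_le_iff_le_exp (hZD x hx)]
      linarith
  have hAne : A.Nonempty := by
    have hq := hdot x1 y1 hx1P hy1
    refine ⟨((x1 ⬝ᵥ y1)⁻¹ • x1, (x1 ⬝ᵥ y1)⁻¹ • y1), pos_smul hx1P (inv_pos.2 hq),
      pos_smul hy1 (inv_pos.2 hq), ?_, ?_, ?_⟩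
    · show ((x1 ⬝ᵥ y1)⁻¹ • x1) ⬝ᵥ y1 = 1
      rw [smul_dotProduct, smul_eq_mul, inv_mul_cancel₀ hq.ne']
    · show x1 ⬝ᵥ ((x1 ⬝ᵥ y1)⁻¹ • y1) = 1
      rw [dotProduct_smul, smul_eq_mul, inv_mul_cancel₀ hq.ne']
    · exact (hhom x1 y1 hx1P hy1 _ _ (inv_pos.2 hq) (inv_pos.2 hq)).le
  have hAb : Bornology.IsBounded A := by
    obtain ⟨a, ha, ha'⟩ := hx1P
    obtain ⟨b, hb, hb'⟩ := hy1D
    refine (isBounded_iff_forall_norm_le).2 ⟨max b⁻¹ a⁻¹, ?_⟩
    rintro ⟨x, y⟩ ⟨hx, hy, e1, e2, -⟩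
    simp only at hx hy e1 e2
    rw [Prod.norm_def]
    refine max_le_max ?_ ?_
    · have h3 := hb' x (mem_dual hx)
      rw [dotProduct_comm, e1] at h3
      show ‖x‖ ≤ b⁻¹
      rw [← one_div, le_div_iff₀ hb]
      linarith
    · have h3 := ha' y (mem_dual hy)
      rw [e2] at h3
      show ‖y‖ ≤ a⁻¹
      rw [← one_div, le_div_iff₀ ha]
      linarith
  have hAc : IsClosed A := by
    refine IsSeqClosed.isClosed ?_
    intro pk p hpk hlim
    have hl1 : Tendsto (fun k => (pk k).1) atTop (𝓝 p.1) := (continuous_fst.tendsto p).comp hlim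
    have hl2 : Tendsto (fun k => (pk k).2) atTop (𝓝 p.2) := (continuous_snd.tendsto p).comp hlim
    have q1 : Pos (dual C) p.1 := pos_of_lim hD (fun k => (hpk k).1) hl1
      (fun k => (hbd _ (hpk k)).2)
    have q2 : Pos C p.2 := pos_of_lim hC (fun k => (hpk k).2.1) hl2
      (fun k => (hbd _ (hpk k)).1)
    refine ⟨q1, q2, ?_, ?_, ?_⟩
    · have h3 := ((dot_cont' y1).tendsto p.1).comp hl1
      refine tendsto_nhds_unique h3 ?_
      refine tendsto_const_nhds.congr (fun k => ?_)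
      exact (hpk k).2.2.1.symm
    · have h3 := ((dot_cont x1).tendsto p.2).comp hl2
      refine tendsto_nhds_unique h3 ?_
      refine tendsto_const_nhds.congr (fun k => ?_)
      exact (hpk k).2.2.2.1.symm
    · have h3 : Tendsto (fun k => G C x1 y1 ε (pk k).1 (pk k).2) atTop
          (𝓝 (G C x1 y1 ε p.1 p.2)) := (hGc p.1 p.2 q1 q2).tendsto.comp hlim
      exact le_of_tendsto' h3 (fun k => (hpk k).2.2.2.2)
  have hAk : IsCompact A := Metric.isCompact_of_isClosed_isBounded hAc hAb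
  obtain ⟨p, hp, hmin⟩ := hAk.exists_isMinOn hAne
    (f := fun p : (Fin N → ℝ) × (Fin N → ℝ) => G C x1 y1 ε p.1 p.2)
    (fun q hq => (hGc q.1 q.2 hq.1 hq.2.1).continuousWithinAt)
  refine ⟨p.1, p.2, hp.1, hp.2.1, fun x y hx hy => ?_⟩
  have s1 := hdot x y1 hx hy1
  have s2 := hdot x1 y hx1P hy
  have hG := hhom x y hx hy _ _ (inv_pos.2 s1) (inv_pos.2 s2)
  by_cases hle : G C x1 y1 ε x y ≤ g0
  · rw [← hG]
    refine hmin (a := ((x ⬝ᵥ y1)⁻¹ • x, (x1 ⬝ᵥ y)⁻¹ • y)) ⟨pos_smul hx (inv_pos.2 s1),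
      pos_smul hy (inv_pos.2 s2), ?_, ?_, ?_⟩
    · show ((x ⬝ᵥ y1)⁻¹ • x) ⬝ᵥ y1 = 1
      rw [smul_dotProduct, smul_eq_mul, inv_mul_cancel₀ s1.ne']
    · show x1 ⬝ᵥ ((x1 ⬝ᵥ y)⁻¹ • y) = 1
      rw [dotProduct_smul, smul_eq_mul, inv_mul_cancel₀ s2.ne']
    · exact hG.le.trans hle
  · exact hp.2.2.2.2.trans (not_le.1 hle).le

end Vale.Agent.P248.NS.T5
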