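import Vale.Agent.P248.NS.Defs

/-!
P248 NS, block T5a (helper933): the blow-up lemma.
-/

open MeasureTheory Set Matrix Filter Topology

namespace Vale.Agent.P248.NS.T5a933

open Vale.Agent.P248.NS

variable {N : ℕ} {C : Set (Fin N → ℝ)}

lemma add_mem (hC : CC C) {a b : Fin N → ℝ} (ha : a ∈ C) (hb : b ∈ C) : a + b ∈ C := by
  have h1 : (1 / 2 : ℝ) • a + (1 / 2 : ℝ) • b ∈ C :=
    hC.conv ha hb (by norm_num) (by norm_num) (by norm_num)
  have h2 := hC.cone _ h1 2 (by norm_num)
  have h3 : (2 : ℝ) • ((1 / 2 : ℝ) • a + (1 / 2 : ℝ) • b) = a + b := by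
    rw [smul_add, smul_smul, smul_smul]; norm_num
  rwa [h3] at h2

lemma zero_mem (hC : CC C) : (0 : Fin N → ℝ) ∈ C := by
  obtain ⟨p, hp⟩ := hC.int
  have := hC.cone p (interior_subset hp) 0 le_rfl
  simpa using this

/-- a nonzero direction of the cone is not a line -/
lemma neg_not_mem (hC : CC C) {a : Fin N → ℝ} (ha : a ∈ C) (h0 : a ≠ 0) : -a ∉ C := by
  intro hn
  obtain ⟨y, c, hc, hy⟩ := hC.pos
  have h1 := hy a ha
  have h2 := hy (-a) hn
  have h3 : 0 < ‖a‖ := norm_pos_iff.2 h0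
  rw [dotProduct_neg, norm_neg] at h2
  nlinarith [mul_pos hc h3]

lemma smul_interior (hC : CC C) {p : Fin N → ℝ} (hp : p ∈ interior C) {s : ℝ} (hs : 0 < s) :
    s • p ∈ interior C := by
  have hopen : IsOpen ((fun z : Fin N → ℝ => s⁻¹ • z) ⁻¹' interior C) :=
    isOpen_interior.preimage (continuous_const_smul _)
  have hsub : ((fun z : Fin N → ℝ => s⁻¹ • z) ⁻¹' interior C) ⊆ C := by
    intro z hz
    have h1 := hC.cone _ (interior_subset hz) s hs.le
    simpa [smul_smul, mul_inv_cancel₀ hs.ne'] using h1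
  refine interior_maximal hsub hopen ?_
  simpa [smul_smul, inv_mul_cancel₀ hs.ne'] using hp

/-- if `w` vanishes at a nonzero point of the cone, the Laplace integral is infinite -/
lemma lintegral_top (hC : CC C) {w z0 : Fin N → ℝ} (hz : z0 ∈ C) (h0 : z0 ≠ 0)
    (hw : w ⬝ᵥ z0 = 0) :
    ∫⁻ z in C, ENNReal.ofReal (Real.exp (-(w ⬝ᵥ z))) = ⊤ := by
  by_contra hfin
  set f : (Fin N → ℝ) → ENNReal := fun z => ENNReal.ofReal (Real.exp (-(w ⬝ᵥ z))) with hf
  have hCm : MeasurableSet C := hC.closed.measurableSet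
  have hfm : Measurable f := by
    have : Continuous fun z : Fin N → ℝ => Real.exp (-(w ⬝ᵥ z)) := by
      unfold dotProduct
      fun_prop
    exact this.measurable.ennreal_ofReal
  set C' : Set (Fin N → ℝ) := (fun z => z - z0) ⁻¹' C with hC'
  have hC'm : MeasurableSet C' := (measurable_id.sub_const z0) hCm
  have hsub : C' ⊆ C := by
    intro z hz'
    have := add_mem hC hz' hz
    simpa using this
  have heq : ∫⁻ z in C', f z = ∫⁻ z in C, f z := by
    rw [← lintegral_indicator hCm, ← lintegral_indicator hC'm,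
      ← lintegral_sub_right_eq_self (μ := volume) (C.indicator f) z0]
    refine lintegral_congr fun z => ?_
    by_cases hzz : z - z0 ∈ C
    · have h1 : z ∈ C' := hzz
      rw [indicator_of_mem h1, indicator_of_mem hzz]
      simp only [hf]
      rw [dotProduct_sub, hw, sub_zero]
    · have h1 : z ∉ C' := hzz
      rw [indicator_of_notMem h1, indicator_of_notMem hzz]
  have hdiff : ∫⁻ z in C \ C', f z = 0 := by
    have h1 : ∫⁻ z in C, f z = (∫⁻ z in C', f z) + ∫⁻ z in C \ C', f z := by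
      rw [← lintegral_inter_add_diff f C hC'm, inter_eq_self_of_subset_right hsub]
    rw [heq] at h1
    have h2 : (∫⁻ z in C, f z) + 0 = (∫⁻ z in C, f z) + ∫⁻ z in C \ C', f z := by
      rw [add_zero]; exact h1
    exact ((ENNReal.add_right_inj hfin).1 h2).symm
  have hnull : volume (C \ C') = 0 := by
    by_contra hne
    have h1 : 0 < volume (C \ C') := pos_iff_ne_zero.2 hne
    have h2 : 0 < ∫⁻ z in C \ C', f z := by
      rw [setLIntegral_pos_iff hfm]
      have h3 : Function.support f = univ := by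
        ext z
        simp [hf, Function.mem_support, Real.exp_pos]
      rw [h3, univ_inter]
      exact h1
    exact h2.ne' hdiff
  -- an open nonempty subset
  obtain ⟨p, hp⟩ := hC.int
  have hex : ∃ s : ℝ, 0 < s ∧ s • p - z0 ∉ C := by
    by_contra hcon
    push_neg at hcon
    have hlim : Tendsto (fun s : ℝ => s • p - z0) (𝓝[>] 0) (𝓝 ((0 : ℝ) • p - z0)) := by
      have : Continuous fun s : ℝ => s • p - z0 := by fun_prop
      exact (this.tendsto 0).mono_left nhdsWithin_le_nhds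
    have hmem : (0 : ℝ) • p - z0 ∈ C := by
      refine hC.closed.mem_of_tendsto hlim ?_
      filter_upwards [self_mem_nhdsWithin] with s hs
      exact hcon s hs
    rw [zero_smul, zero_sub] at hmem
    exact neg_not_mem hC hz h0 hmem
  obtain ⟨s, hs, hsp⟩ := hex
  have hO : IsOpen (interior C ∩ C'ᶜ) := by
    refine isOpen_interior.inter ?_
    have : IsClosed C' := hC.closed.preimage (continuous_id.sub continuous_const)
    exact this.isOpen_compl
  have hne : (interior C ∩ C'ᶜ).Nonempty := ⟨s • p, smul_interior hC hp hs, hsp⟩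
  have hpos : 0 < volume (interior C ∩ C'ᶜ) := hO.measure_pos volume hne
  have hle : volume (interior C ∩ C'ᶜ) ≤ volume (C \ C') :=
    measure_mono fun z hz' => ⟨interior_subset hz'.1, hz'.2⟩
  exact absurd (hpos.trans_le hle) (by rw [hnull]; exact lt_irrefl _)

/-- a functional which is positive on the cone without the origin is uniformly positive -/
lemma pos_of_forall (hC : CC C) {w : Fin N → ℝ} (h : ∀ z ∈ C, z ≠ 0 → 0 < w ⬝ᵥ z) : Pos C w := by
  by_cases hemp : (C ∩ Metric.sphere (0 : Fin N → ℝ) 1).Nonempty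
  · have hcomp : IsCompact (C ∩ Metric.sphere (0 : Fin N → ℝ) 1) :=
      (isCompact_sphere _ _).inter_left hC.closed
    have hcont : Continuous fun z : Fin N → ℝ => w ⬝ᵥ z := by
      unfold dotProduct
      fun_prop
    obtain ⟨z1, hz1, hmin⟩ := hcomp.exists_isMinOn hemp hcont.continuousOn
    have hz1n : z1 ≠ 0 := by
      intro h0
      have := hz1.2
      rw [h0] at this
      simp at this
    refine ⟨w ⬝ᵥ z1, h z1 hz1.1 hz1n, fun z hz => ?_⟩
    by_cases hz0 : z = 0
    · simp [hz0]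
    have hn : 0 < ‖z‖ := norm_pos_iff.2 hz0
    have hu : ‖z‖⁻¹ • z ∈ C ∩ Metric.sphere (0 : Fin N → ℝ) 1 := by
      refine ⟨hC.cone z hz _ (inv_nonneg.2 hn.le), ?_⟩
      rw [mem_sphere_zero_iff_norm, norm_smul, norm_inv, norm_norm, inv_mul_cancel₀ hn.ne']
    have h1 : w ⬝ᵥ z1 ≤ w ⬝ᵥ (‖z‖⁻¹ • z) := hmin hu
    rw [dotProduct_smul, smul_eq_mul] at h1
    calc (w ⬝ᵥ z1) * ‖z‖ ≤ (‖z‖⁻¹ * (w ⬝ᵥ z)) * ‖z‖ := mul_le_mul_of_nonneg_right h1 hn.le
      _ = w ⬝ᵥ z := by field_simp
  · refine ⟨1, one_pos, fun z hz => ?_⟩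
    by_cases hz0 : z = 0
    · simp [hz0]
    exfalso
    have hn : 0 < ‖z‖ := norm_pos_iff.2 hz0
    refine hemp ⟨‖z‖⁻¹ • z, hC.cone z hz _ (inv_nonneg.2 hn.le), ?_⟩
    rw [mem_sphere_zero_iff_norm, norm_smul, norm_inv, norm_norm, inv_mul_cancel₀ hn.ne']

/-- block T5a, the blow-up lemma -/
theorem blowup (hC : CC C) {w : Fin N → ℝ} (hw : w ∈ dual C)
    (hfin : ∫⁻ z in C, ENNReal.ofReal (Real.exp (-(w ⬝ᵥ z))) ≠ ⊤) : Pos C w := by
  refine pos_of_forall hC fun z hz hz0 => ?_
  refine lt_of_le_of_ne (hw z hz) fun h => ?_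
  exact hfin (lintegral_top hC hz hz0 h.symm)

end Vale.Agent.P248.NS.T5a933
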