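import Vale.Agent.P248.NS.Defs

/-!
P248, block T6 (helper620): the second order condition at the minimum point.
-/

open MeasureTheory Set Matrix Filter Topology

namespace Vale.Agent.P248.NS

namespace T6

variable {N : ℕ} {C : Set (Fin N → ℝ)}

theorem mem_dual {y : Fin N → ℝ} (h : Pos C y) : y ∈ dual C := by
  obtain ⟨a, ha, h⟩ := h
  intro z hz
  exact le_trans (by positivity) (h z hz)

theorem exists_ne (hC : CC C) (hN : 0 < N) : ∃ z ∈ C, z ≠ 0 := by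
  obtain ⟨z0, hz0⟩ := hC.int
  by_cases h : z0 = 0
  · subst h
    obtain ⟨r, hr, hb⟩ := Metric.mem_nhds_iff.1 (mem_interior_iff_mem_nhds.1 hz0)
    refine ⟨fun _ => r / 2, hb ?_, ?_⟩
    · rw [mem_ball_zero_iff]
      refine lt_of_le_of_lt (pi_norm_const_le (r / 2)) ?_
      rw [Real.norm_eq_abs, abs_of_pos (by positivity)]
      linarith
    · intro h0
      have := congrFun h0 ⟨0, hN⟩
      simp only [Pi.zero_apply] at this
      linarith
  · exact ⟨z0, interior_subset hz0, h⟩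

theorem dot_pos (hC : CC C) (hN : 0 < N) {x y : Fin N → ℝ} (hx : Pos (dual C) x) (hy : Pos C y) :
    0 < x ⬝ᵥ y := by
  have hyd := mem_dual hy
  have hy0 : y ≠ 0 := by
    rintro rfl
    obtain ⟨z, hz, hz0⟩ := exists_ne hC hN
    obtain ⟨a, ha, h⟩ := hy
    have h1 := h z hz
    rw [zero_dotProduct] at h1
    have h2 : 0 < a * ‖z‖ := mul_pos ha (norm_pos_iff.2 hz0)
    linarith
  obtain ⟨a, ha, h⟩ := hx
  exact lt_of_lt_of_le (mul_pos ha (norm_pos_iff.2 hy0)) (h y hyd)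

theorem dot_abs_le (η z : Fin N → ℝ) : |η ⬝ᵥ z| ≤ (∑ i, |η i|) * ‖z‖ := by
  rw [dotProduct, Finset.sum_mul]
  refine (Finset.abs_sum_le_sum_abs _ _).trans (Finset.sum_le_sum fun i _ => ?_)
  rw [abs_mul]
  exact mul_le_mul_of_nonneg_left (norm_le_pi_norm z i) (abs_nonneg _)

theorem pos_add {y : Fin N → ℝ} (h : Pos C y) (η : Fin N → ℝ) :
    ∃ t0 : ℝ, 0 < t0 ∧ ∀ t : ℝ, |t| < t0 → Pos C (y + t • η) := by
  obtain ⟨a, ha, h⟩ := h
  set S : ℝ := ∑ i, |η i| with hS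
  have hS0 : 0 ≤ S := Finset.sum_nonneg fun i _ => abs_nonneg _
  refine ⟨a / (2 * (S + 1)), by positivity, fun t ht => ⟨a / 2, by positivity, fun z hz => ?_⟩⟩
  have h1 := h z hz
  have h2 := dot_abs_le η z
  rw [add_dotProduct, smul_dotProduct, smul_eq_mul]
  rw [lt_div_iff₀ (by positivity)] at ht
  have h3 : |t * (η ⬝ᵥ z)| ≤ a / 2 * ‖z‖ := by
    rw [abs_mul]
    calc |t| * |η ⬝ᵥ z| ≤ |t| * (S * ‖z‖) := mul_le_mul_of_nonneg_left h2 (abs_nonneg _)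
      _ = (|t| * S) * ‖z‖ := by ring
      _ ≤ a / 2 * ‖z‖ := by
          refine mul_le_mul_of_nonneg_right ?_ (norm_nonneg _)
          have := abs_nonneg t
          nlinarith
  have h4 := neg_le_of_abs_le h3
  linarith

theorem log_add_le {a b c w : ℝ} (ha : 0 < a) (hb : 0 < b) (hc : 0 < c)
    (h : a * b ≤ c ^ 2 * (1 + w)) : Real.log a + Real.log b ≤ 2 * Real.log c + w := by
  have hab : 0 < a * b := mul_pos ha hb
  have hw : 0 < 1 + w := by
    by_contra hcon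
    push Not at hcon
    have : c ^ 2 * (1 + w) ≤ 0 := mul_nonpos_of_nonneg_of_nonpos (by positivity) hcon
    linarith
  have h1 := Real.log_le_log hab h
  rw [Real.log_mul ha.ne' hb.ne', Real.log_mul (by positivity) hw.ne', Real.log_pow] at h1
  have h2 := Real.log_le_sub_one_of_pos hw
  push_cast at h1
  linarith

/-- the pairing along a line -/
theorem dot_line (x ξ y η : Fin N → ℝ) (t : ℝ) :
    ((x + t • ξ) ⬝ᵥ (y + t • η)) * ((x - t • ξ) ⬝ᵥ (y - t • η)) =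
      (x ⬝ᵥ y + t ^ 2 * (ξ ⬝ᵥ η)) ^ 2 - t ^ 2 * (ξ ⬝ᵥ y + x ⬝ᵥ η) ^ 2 := by
  have h1 : (x + t • ξ) ⬝ᵥ (y + t • η) =
      x ⬝ᵥ y + t ^ 2 * (ξ ⬝ᵥ η) + t * (ξ ⬝ᵥ y + x ⬝ᵥ η) := by
    simp only [add_dotProduct, dotProduct_add, smul_dotProduct, dotProduct_smul, smul_eq_mul]
    ring
  have h2 : (x - t • ξ) ⬝ᵥ (y - t • η) =
      x ⬝ᵥ y + t ^ 2 * (ξ ⬝ᵥ η) - t * (ξ ⬝ᵥ y + x ⬝ᵥ η) := by
    simp only [sub_dotProduct, dotProduct_sub, smul_dotProduct, dotProduct_smul, smul_eq_mul]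
    ring
  rw [h1, h2]
  ring

end T6

open T6 in
theorem stmtSecond (hDual : StmtDual) (hScale : StmtScale) (hDiff : StmtDiff) : StmtSecond := by
  intro N C hN hC x1 y1 hx1 hy1 ε hε hε1 x0 y0 hx0 hy0 hmin ξ η
  obtain ⟨hD, hint, -⟩ := hDual N C hC
  have hx1p : Pos (dual C) x1 := hint x1 hx1
  obtain ⟨B1, t1, ht1, hB1⟩ := hDiff N C hC y0 hy0 η
  obtain ⟨B2, t2, ht2, hB2⟩ := hDiff N (dual C) hD x0 hx0 ξ
  obtain ⟨t3, ht3, hp3⟩ := pos_add hy0 η
  obtain ⟨t4, ht4, hp4⟩ := pos_add hx0 ξ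
  set q1 := η ⬝ᵥ cov C y0 *ᵥ η with hq1
  set q2 := ξ ⬝ᵥ cov (dual C) x0 *ᵥ ξ with hq2
  set p := x0 ⬝ᵥ y0 with hp
  set s := ξ ⬝ᵥ η with hs
  have hp0 : 0 < p := dot_pos hC hN hx0 hy0
  have hN1 : (1 : ℝ) ≤ (N : ℝ) := by exact_mod_cast hN
  have hNε : 0 ≤ (N : ℝ) - ε := by linarith
  set B : ℝ := B1 + B2 + ((N : ℝ) - ε) * (s ^ 2 / p ^ 2) with hB
  -- the key inequality
  have key : ∀ t : ℝ, 0 < t → t < t1 → t < t2 → t < t3 → t < t4 → t ≤ 1 →
      0 ≤ q1 + q2 + 2 * (((N : ℝ) - ε) / p) * s + B * t := by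
    intro t ht h1 h2 h3 h4 h5
    have hat : |t| = t := abs_of_pos ht
    have hyp : Pos C (y0 + t • η) := hp3 t (by rwa [hat])
    have hym : Pos C (y0 - t • η) := by
      have := hp3 (-t) (by rwa [abs_neg, hat])
      rwa [neg_smul, ← sub_eq_add_neg] at this
    have hxp : Pos (dual C) (x0 + t • ξ) := hp4 t (by rwa [hat])
    have hxm : Pos (dual C) (x0 - t • ξ) := by
      have := hp4 (-t) (by rwa [abs_neg, hat])
      rwa [neg_smul, ← sub_eq_add_neg] at this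
    have m1 := hmin _ _ hxp hyp
    have m2 := hmin _ _ hxm hym
    have a1 := log_add_le (hScale N C hC _ hyp).1 (hScale N C hC _ hym).1 (hScale N C hC _ hy0).1
      (w := t ^ 2 * q1 + B1 * |t| ^ 3) (by
        have := hB1 t (by rwa [hat])
        linarith)
    have a2 := log_add_le (hScale N (dual C) hD _ hxp).1 (hScale N (dual C) hD _ hxm).1
      (hScale N (dual C) hD _ hx0).1 (w := t ^ 2 * q2 + B2 * |t| ^ 3) (by
        have := hB2 t (by rwa [hat])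
        linarith)
    have a3 := log_add_le (dot_pos hC hN hxp hyp) (dot_pos hC hN hxm hym) hp0
      (w := 2 * t ^ 2 * s / p + t ^ 4 * s ^ 2 / p ^ 2) (by
        rw [dot_line]
        have e : p ^ 2 * (1 + (2 * t ^ 2 * s / p + t ^ 4 * s ^ 2 / p ^ 2)) =
            (p + t ^ 2 * s) ^ 2 := by
          field_simp
          ring
        rw [e]
        have := mul_nonneg (sq_nonneg t) (sq_nonneg (ξ ⬝ᵥ y0 + x0 ⬝ᵥ η))
        linarith)
    have a4 := log_add_le (dot_pos hC hN hx1p hyp) (dot_pos hC hN hx1p hym)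
      (dot_pos hC hN hx1p hy0) (w := 0) (by
        have e : (x1 ⬝ᵥ (y0 + t • η)) * (x1 ⬝ᵥ (y0 - t • η)) =
            (x1 ⬝ᵥ y0) ^ 2 - t ^ 2 * (x1 ⬝ᵥ η) ^ 2 := by
          rw [dotProduct_add, dotProduct_sub, dotProduct_smul, smul_eq_mul]
          ring
        rw [e]
        have := mul_nonneg (sq_nonneg t) (sq_nonneg (x1 ⬝ᵥ η))
        linarith)
    have a5 := log_add_le (dot_pos hC hN hxp hy1) (dot_pos hC hN hxm hy1)
      (dot_pos hC hN hx0 hy1) (w := 0) (by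
        have e : ((x0 + t • ξ) ⬝ᵥ y1) * ((x0 - t • ξ) ⬝ᵥ y1) =
            (x0 ⬝ᵥ y1) ^ 2 - t ^ 2 * (ξ ⬝ᵥ y1) ^ 2 := by
          rw [add_dotProduct, sub_dotProduct, smul_dotProduct, smul_eq_mul]
          ring
        rw [e]
        have := mul_nonneg (sq_nonneg t) (sq_nonneg (ξ ⬝ᵥ y1))
        linarith)
    simp only [G] at m1 m2
    have a3' := mul_le_mul_of_nonneg_left a3 hNε
    have a4' := mul_le_mul_of_nonneg_left a4 hε.le
    have a5' := mul_le_mul_of_nonneg_left a5 hε.le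
    have tot : 0 ≤ (t ^ 2 * q1 + B1 * |t| ^ 3) + (t ^ 2 * q2 + B2 * |t| ^ 3) +
        ((N : ℝ) - ε) * (2 * t ^ 2 * s / p + t ^ 4 * s ^ 2 / p ^ 2) := by
      linarith
    rw [hat] at tot
    have e2 : (t ^ 2 * q1 + B1 * t ^ 3) + (t ^ 2 * q2 + B2 * t ^ 3) +
        ((N : ℝ) - ε) * (2 * t ^ 2 * s / p + t ^ 4 * s ^ 2 / p ^ 2) =
        t ^ 2 * (q1 + q2 + 2 * (((N : ℝ) - ε) / p) * s + (B1 + B2) * t +
          ((N : ℝ) - ε) * (s ^ 2 / p ^ 2) * t ^ 2) := by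
      field_simp
      ring
    rw [e2] at tot
    have h6 : 0 ≤ q1 + q2 + 2 * (((N : ℝ) - ε) / p) * s + (B1 + B2) * t +
          ((N : ℝ) - ε) * (s ^ 2 / p ^ 2) * t ^ 2 :=
      nonneg_of_mul_nonneg_right tot (by positivity)
    have h7 : ((N : ℝ) - ε) * (s ^ 2 / p ^ 2) * t ^ 2 ≤ ((N : ℝ) - ε) * (s ^ 2 / p ^ 2) * t := by
      refine mul_le_mul_of_nonneg_left ?_ (by positivity)
      nlinarith
    rw [hB]
    linarith
  by_contra hcon
  push Not at hcon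
  set Q := q1 + q2 + 2 * (((N : ℝ) - ε) / p) * s with hQ
  set T : ℝ := min (min (min t1 t2) (min t3 t4)) 1 / 2 with hT
  have hm : 0 < min (min (min t1 t2) (min t3 t4)) 1 := by
    simp only [lt_min_iff]
    exact ⟨⟨⟨ht1, ht2⟩, ht3, ht4⟩, one_pos⟩
  have hT0 : 0 < T := by rw [hT]; linarith
  set t : ℝ := min T (-Q / (2 * (|B| + 1))) with htdef
  have hB0 : 0 ≤ |B| := abs_nonneg B
  have ht0 : 0 < t := lt_min hT0 (div_pos (by linarith) (by positivity))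
  have htT : t < min (min (min t1 t2) (min t3 t4)) 1 := by
    have : t ≤ T := min_le_left _ _
    rw [hT] at this
    linarith
  simp only [lt_min_iff] at htT
  obtain ⟨⟨⟨k1, k2⟩, k3, k4⟩, k5⟩ := htT
  have h := key t ht0 k1 k2 k3 k4 k5.le
  have h8 : t ≤ -Q / (2 * (|B| + 1)) := min_le_right _ _
  rw [le_div_iff₀ (by positivity)] at h8
  have h9 : B * t ≤ |B| * t := mul_le_mul_of_nonneg_right (le_abs_self B) ht0.le
  nlinarith

end Vale.Agent.P248.NS
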