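import Vale.Agent.P248.NS.Defs

/-! P248, block T6: second order condition at the minimum point (from T1, T2, T3). -/

open MeasureTheory Set Matrix Filter Topology

namespace Vale.Agent.P248.NS.T6b

open Vale.Agent.P248.NS

theorem abs_dot_le {N : ℕ} (y z : Fin N → ℝ) : |y ⬝ᵥ z| ≤ (∑ i, |y i|) * ‖z‖ := by
  unfold dotProduct
  calc |∑ i, y i * z i| ≤ ∑ i, |y i * z i| := Finset.abs_sum_le_sum_abs _ _
    _ ≤ ∑ i, |y i| * ‖z‖ := by
        apply Finset.sum_le_sum
        intro i _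
        rw [abs_mul]
        exact mul_le_mul_of_nonneg_left (norm_le_pi_norm z i) (abs_nonneg _)
    _ = (∑ i, |y i|) * ‖z‖ := by rw [Finset.sum_mul]

/-- positivity is an open condition along lines -/
theorem Pos.pert {N : ℕ} {C : Set (Fin N → ℝ)} {y : Fin N → ℝ} (h : Pos C y) (η : Fin N → ℝ) :
    ∃ t0 : ℝ, 0 < t0 ∧ ∀ t : ℝ, |t| < t0 → Pos C (y + t • η) := by
  obtain ⟨a, ha, h⟩ := h
  set S := ∑ i, |η i| with hS
  have hS0 : 0 ≤ S := Finset.sum_nonneg fun i _ => abs_nonneg _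
  refine ⟨a / (2 * (S + 1)), by positivity, fun t ht => ⟨a / 2, by positivity, fun z hz => ?_⟩⟩
  rw [add_dotProduct, smul_dotProduct, smul_eq_mul]
  have h1 := h z hz
  have h2 := abs_dot_le η z
  have h3 : |t * (η ⬝ᵥ z)| ≤ a / 2 * ‖z‖ := by
    rw [abs_mul]
    calc |t| * |η ⬝ᵥ z| ≤ (a / (2 * (S + 1))) * ((S + 1) * ‖z‖) := by
          apply mul_le_mul ht.le _ (abs_nonneg _) (by positivity)
          refine h2.trans (mul_le_mul_of_nonneg_right (by linarith) (norm_nonneg _))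
      _ = a / 2 * ‖z‖ := by field_simp
  have h4 := neg_abs_le (t * (η ⬝ᵥ z))
  linarith

theorem Pos.mem_dual {N : ℕ} {C : Set (Fin N → ℝ)} {y : Fin N → ℝ} (h : Pos C y) : y ∈ dual C := by
  obtain ⟨a, ha, h⟩ := h
  intro z hz
  exact le_trans (by positivity) (h z hz)

theorem Pos.ne_zero {N : ℕ} (hN : 0 < N) {C : Set (Fin N → ℝ)} (hC : CC C) {y : Fin N → ℝ}
    (h : Pos C y) : y ≠ 0 := by
  rintro rfl
  obtain ⟨a, ha, h⟩ := h
  have hz : ∀ z ∈ C, z = 0 := by
    intro z hz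
    have h1 := h z hz
    rw [zero_dotProduct] at h1
    have h2 : ‖z‖ ≤ 0 := by
      by_contra hcon
      push Not at hcon
      have := mul_pos ha hcon
      linarith
    exact norm_le_zero_iff.1 h2
  have : Nonempty (Fin N) := ⟨⟨0, hN⟩⟩
  obtain ⟨x, hx⟩ := hC.int
  have hsub : interior C ⊆ {0} := fun z hz' => hz z (interior_subset hz')
  have hopen : IsOpen (interior C) := isOpen_interior
  have h0 : x = 0 := hsub hx
  subst h0
  have h1 : interior C = {0} := Subset.antisymm hsub (singleton_subset_iff.2 hx)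
  rw [h1] at hopen
  exact not_isOpen_singleton (0 : Fin N → ℝ) hopen

theorem dot_pos {N : ℕ} (hN : 0 < N) {C : Set (Fin N → ℝ)} (hC : CC C) {x y : Fin N → ℝ}
    (hx : Pos (dual C) x) (hy : Pos C y) : 0 < x ⬝ᵥ y := by
  obtain ⟨a, ha, h⟩ := hx
  have h1 := h y (Pos.mem_dual hy)
  have h2 : 0 < ‖y‖ := norm_pos_iff.2 (Pos.ne_zero hN hC hy)
  exact lt_of_lt_of_le (mul_pos ha h2) h1

theorem log_add_log_le {u v w : ℝ} (hu : 0 < u) (hv : 0 < v) (hw : 0 < w) {r : ℝ}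
    (h : u * v ≤ w ^ 2 * (1 + r)) : Real.log u + Real.log v ≤ 2 * Real.log w + r := by
  have huv : 0 < u * v := mul_pos hu hv
  have hr : 0 < 1 + r := by
    by_contra hcon
    push Not at hcon
    have : w ^ 2 * (1 + r) ≤ 0 := mul_nonpos_of_nonneg_of_nonpos (by positivity) hcon
    linarith
  rw [← Real.log_mul hu.ne' hv.ne']
  calc Real.log (u * v) ≤ Real.log (w ^ 2 * (1 + r)) := Real.log_le_log huv h
    _ = 2 * Real.log w + Real.log (1 + r) := by
        rw [Real.log_mul (by positivity) hr.ne', Real.log_pow]; norm_num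
    _ ≤ 2 * Real.log w + r := by
        have := Real.log_le_sub_one_of_pos hr
        linarith

theorem stmtSecond_of (h1 : StmtDual) (h2 : StmtScale) (h3 : StmtDiff) : StmtSecond := by
  intro N C hN hC x1 y1 hx1 hy1 ε hε hε1 x0 y0 hx0 hy0 hmin ξ η
  obtain ⟨hD, hD1, -⟩ := h1 N C hC
  have hX1 : Pos (dual C) x1 := hD1 x1 hx1
  obtain ⟨B1, t1, ht1, hd1⟩ := h3 N C hC y0 hy0 η
  obtain ⟨B2, t2, ht2, hd2⟩ := h3 N (dual C) hD x0 hx0 ξ
  obtain ⟨t3, ht3, hp3⟩ := Pos.pert hy0 η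
  obtain ⟨t4, ht4, hp4⟩ := Pos.pert hx0 ξ
  set mη := η ⬝ᵥ cov C y0 *ᵥ η with hmη
  set mξ := ξ ⬝ᵥ cov (dual C) x0 *ᵥ ξ with hmξ
  set p := x0 ⬝ᵥ y0 with hp
  set q := ξ ⬝ᵥ η with hq
  have hp0 : 0 < p := dot_pos hN hC hx0 hy0
  have hNε : 0 < (N : ℝ) - ε := by
    have : (1 : ℝ) ≤ N := by exact_mod_cast hN
    linarith
  have key : ∀ t : ℝ, |t| < min (min t1 t2) (min t3 t4) →
      0 ≤ t ^ 2 * (mη + mξ + 2 * ((N - ε) / p) * q) + (B1 + B2) * |t| ^ 3 +
        (N - ε) * (t ^ 2 * q / p) ^ 2 := by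
    intro t ht
    have a1 : |t| < t1 := lt_of_lt_of_le ht ((min_le_left _ _).trans (min_le_left _ _))
    have a2 : |t| < t2 := lt_of_lt_of_le ht ((min_le_left _ _).trans (min_le_right _ _))
    have a3 : |t| < t3 := lt_of_lt_of_le ht ((min_le_right _ _).trans (min_le_left _ _))
    have a4 : |t| < t4 := lt_of_lt_of_le ht ((min_le_right _ _).trans (min_le_right _ _))
    have py : Pos C (y0 + t • η) := hp3 t a3
    have py' : Pos C (y0 - t • η) := by
      have := hp3 (-t) (by rwa [abs_neg])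
      rwa [neg_smul, ← sub_eq_add_neg] at this
    have px : Pos (dual C) (x0 + t • ξ) := hp4 t a4
    have px' : Pos (dual C) (x0 - t • ξ) := by
      have := hp4 (-t) (by rwa [abs_neg])
      rwa [neg_smul, ← sub_eq_add_neg] at this
    have g1 := hmin _ _ px py
    have g2 := hmin _ _ px' py'
    have l1 := log_add_log_le (h2 N C hC _ py).1 (h2 N C hC _ py').1 (h2 N C hC _ hy0).1
      (r := t ^ 2 * mη + B1 * |t| ^ 3) (by
        have := hd1 t a1
        rw [← add_assoc]; exact this)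
    have l2 := log_add_log_le (h2 N _ hD _ px).1 (h2 N _ hD _ px').1 (h2 N _ hD _ hx0).1
      (r := t ^ 2 * mξ + B2 * |t| ^ 3) (by
        have := hd2 t a2
        rw [← add_assoc]; exact this)
    have e1 : (x0 + t • ξ) ⬝ᵥ (y0 + t • η) = p + t ^ 2 * q + t * (x0 ⬝ᵥ η + ξ ⬝ᵥ y0) := by
      rw [add_dotProduct, dotProduct_add, dotProduct_add, smul_dotProduct, smul_dotProduct,
        dotProduct_smul, dotProduct_smul]
      simp only [smul_eq_mul]; ring
    have e2 : (x0 - t • ξ) ⬝ᵥ (y0 - t • η) = p + t ^ 2 * q - t * (x0 ⬝ᵥ η + ξ ⬝ᵥ y0) := by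
      rw [sub_dotProduct, dotProduct_sub, dotProduct_sub, smul_dotProduct, smul_dotProduct,
        dotProduct_smul, dotProduct_smul]
      simp only [smul_eq_mul]; ring
    have l3 := log_add_log_le (dot_pos hN hC px py) (dot_pos hN hC px' py') hp0
      (r := 2 * (t ^ 2 * q / p) + (t ^ 2 * q / p) ^ 2) (by
        rw [e1, e2]
        have e3 : p ^ 2 * (1 + (2 * (t ^ 2 * q / p) + (t ^ 2 * q / p) ^ 2)) =
            (p + t ^ 2 * q) ^ 2 := by
          field_simp
          ring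
        rw [e3]
        nlinarith [sq_nonneg (t * (x0 ⬝ᵥ η + ξ ⬝ᵥ y0))])
    have l4 := log_add_log_le (dot_pos hN hC hX1 py) (dot_pos hN hC hX1 py')
      (dot_pos hN hC hX1 hy0) (r := 0) (by
        rw [dotProduct_add, dotProduct_sub, dotProduct_smul, smul_eq_mul]
        nlinarith [sq_nonneg (t * (x1 ⬝ᵥ η))])
    have l5 := log_add_log_le (dot_pos hN hC px hy1) (dot_pos hN hC px' hy1)
      (dot_pos hN hC hx0 hy1) (r := 0) (by
        rw [add_dotProduct, sub_dotProduct, smul_dotProduct, smul_eq_mul]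
        nlinarith [sq_nonneg (t * (ξ ⬝ᵥ y1))])
    unfold G at g1 g2
    have m3 := mul_le_mul_of_nonneg_left l3 hNε.le
    have m4 := mul_le_mul_of_nonneg_left l4 hε.le
    have m5 := mul_le_mul_of_nonneg_left l5 hε.le
    have e6 : t ^ 2 * (mη + mξ + 2 * ((N - ε) / p) * q) =
        t ^ 2 * mη + t ^ 2 * mξ + (N - ε) * (2 * (t ^ 2 * q / p)) := by
      field_simp
    rw [e6]
    linarith
  -- divide by `t ^ 2` and let `t → 0`
  set A := mη + mξ + 2 * ((N - ε) / p) * q with hA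
  by_contra hneg
  push Not at hneg
  have hlim : Tendsto (fun t : ℝ => A + (B1 + B2) * t + (N - ε) * (q / p) ^ 2 * t ^ 2)
      (𝓝[>] 0) (𝓝 (A + (B1 + B2) * 0 + (N - ε) * (q / p) ^ 2 * 0 ^ 2)) := by
    apply Tendsto.mono_left _ nhdsWithin_le_nhds
    apply Continuous.tendsto
    continuity
  have hlim2 : A + (B1 + B2) * 0 + ((N : ℝ) - ε) * (q / p) ^ 2 * 0 ^ 2 < 0 := by
    simpa using hneg
  have hev := hlim.eventually (gt_mem_nhds hlim2)
  have hsmall : ∀ᶠ t : ℝ in 𝓝[>] 0, t < min (min t1 t2) (min t3 t4) :=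
    Filter.Eventually.filter_mono nhdsWithin_le_nhds
      (gt_mem_nhds (lt_min (lt_min ht1 ht2) (lt_min ht3 ht4)))
  obtain ⟨t, ⟨hta, htb⟩, ht0⟩ := ((hev.and hsmall).and self_mem_nhdsWithin).exists
  have ht0' : 0 < t := ht0
  have hk := key t (by rwa [abs_of_pos ht0'])
  rw [abs_of_pos ht0'] at hk
  have : t ^ 2 * A + (B1 + B2) * t ^ 3 + (N - ε) * (t ^ 2 * q / p) ^ 2 =
      t ^ 2 * (A + (B1 + B2) * t + (N - ε) * (q / p) ^ 2 * t ^ 2) := by
    field_simp
  rw [this] at hk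
  have h9 : t ^ 2 * (A + (B1 + B2) * t + (N - ε) * (q / p) ^ 2 * t ^ 2) < 0 :=
    mul_neg_of_pos_of_neg (by positivity) hta
  linarith

end Vale.Agent.P248.NS.T6b
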