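import Vale.Agent.P248.NS.Defs

/-!
P248, block T7 (helper595): the matrix lemma.
-/

open Matrix

namespace Vale.Agent.P248.NS.T7

section
variable {n : Type*} [Fintype n] [DecidableEq n]

theorem spec {A : Matrix n n ℝ} (hA : A.IsHermitian) :
    ∃ U : Matrix n n ℝ, Uᵀ * U = 1 ∧ U * Uᵀ = 1 ∧ A = U * diagonal hA.eigenvalues * Uᵀ := by
  refine ⟨(hA.eigenvectorUnitary : Matrix n n ℝ), ?_, ?_, ?_⟩
  · have := Matrix.mem_unitaryGroup_iff'.mp hA.eigenvectorUnitary.2
    rwa [Matrix.star_eq_conjTranspose, Matrix.conjTranspose_eq_transpose_of_trivial] at this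
  · have := Matrix.mem_unitaryGroup_iff.mp hA.eigenvectorUnitary.2
    rwa [Matrix.star_eq_conjTranspose, Matrix.conjTranspose_eq_transpose_of_trivial] at this
  · have h := hA.spectral_theorem
    rw [Unitary.conjStarAlgAut_apply, Matrix.star_eq_conjTranspose,
      Matrix.conjTranspose_eq_transpose_of_trivial] at h
    exact h

theorem exists_root {P : Matrix n n ℝ} (hP : P.PosDef) :
    ∃ S : Matrix n n ℝ, IsUnit S ∧ P = Sᵀ * S := by
  obtain ⟨U, h1, h2, h3⟩ := spec hP.isHermitian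
  set l := hP.isHermitian.eigenvalues
  have hl : ∀ i, 0 < l i := fun i => hP.eigenvalues_pos i
  have hS : P = (diagonal (fun i => √(l i)) * Uᵀ)ᵀ * (diagonal (fun i => √(l i)) * Uᵀ) := by
    rw [Matrix.transpose_mul, Matrix.transpose_transpose, Matrix.diagonal_transpose]
    conv_lhs => rw [h3]
    calc U * diagonal l * Uᵀ = U * (diagonal (fun i => √(l i)) * diagonal (fun i => √(l i))) * Uᵀ := by
          rw [Matrix.diagonal_mul_diagonal]
          congr 3
          funext i
          rw [Real.mul_self_sqrt (hl i).le]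
      _ = _ := by simp only [Matrix.mul_assoc]
  refine ⟨_, ?_, hS⟩
  rw [Matrix.isUnit_iff_isUnit_det]
  have hd := congrArg Matrix.det hS
  rw [Matrix.det_mul, Matrix.det_transpose] at hd
  rw [isUnit_iff_ne_zero]
  intro h0
  rw [h0, mul_zero] at hd
  exact hP.det_pos.ne' hd

theorem det_le_det {P Q : Matrix n n ℝ}
    (hP : P.PosDef) (h : (Q - P).PosSemidef) : P.det ≤ Q.det := by
  obtain ⟨S, hS, rfl⟩ := exists_root hP
  have hSd : IsUnit S.det := (Matrix.isUnit_iff_isUnit_det _).mp hS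
  have hSd' : IsUnit (Sᵀ).det := by
    rw [Matrix.det_transpose]; exact hSd
  set E : Matrix n n ℝ := (S⁻¹)ᵀ * (Q - Sᵀ * S) * S⁻¹ with hE
  have hEp : E.PosSemidef := by
    have := h.conjTranspose_mul_mul_same S⁻¹
    rwa [Matrix.conjTranspose_eq_transpose_of_trivial] at this
  have hQ : Q = Sᵀ * (1 + E) * S := by
    have h1 : Sᵀ * E * S = Q - Sᵀ * S := by
      rw [hE, Matrix.transpose_nonsing_inv]
      calc Sᵀ * ((Sᵀ)⁻¹ * (Q - Sᵀ * S) * S⁻¹) * S
          = (Sᵀ * (Sᵀ)⁻¹) * (Q - Sᵀ * S) * (S⁻¹ * S) := by simp only [Matrix.mul_assoc]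
        _ = Q - Sᵀ * S := by
            rw [Matrix.mul_nonsing_inv _ hSd', Matrix.nonsing_inv_mul _ hSd, Matrix.one_mul,
              Matrix.mul_one]
    rw [Matrix.mul_add, Matrix.mul_one, Matrix.add_mul, h1]
    abel
  obtain ⟨U, hU1, hU2, hU3⟩ := spec hEp.isHermitian
  have hdet : 1 ≤ (1 + E).det := by
    have h1 : 1 + E = U * diagonal (fun i => 1 + hEp.isHermitian.eigenvalues i) * Uᵀ := by
      conv_lhs => rw [hU3]
      have : (diagonal (fun i => 1 + hEp.isHermitian.eigenvalues i))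
          = 1 + diagonal hEp.isHermitian.eigenvalues := by
        rw [← Matrix.diagonal_one, Matrix.diagonal_add]
      rw [this, Matrix.mul_add, Matrix.mul_one, Matrix.add_mul, hU2]
    have h2 : (U.det) * (U.det) = 1 := by
      have := congrArg Matrix.det hU2
      rwa [Matrix.det_mul, Matrix.det_transpose, Matrix.det_one] at this
    rw [h1, Matrix.det_mul, Matrix.det_mul, Matrix.det_transpose, Matrix.det_diagonal]
    have h3 : 1 ≤ ∏ i, (1 + hEp.isHermitian.eigenvalues i) := by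
      calc (1 : ℝ) = ∏ _i : n, (1 : ℝ) := by rw [Finset.prod_const_one]
        _ ≤ _ := Finset.prod_le_prod (fun _ _ => zero_le_one) fun i _ => by
            have := hEp.eigenvalues_nonneg i
            linarith only [this]
    calc (1 : ℝ) ≤ ∏ i, (1 + hEp.isHermitian.eigenvalues i) := h3
      _ = (U.det * U.det) * ∏ i, (1 + hEp.isHermitian.eigenvalues i) := by rw [h2, one_mul]
      _ = _ := by ring
  rw [hQ, Matrix.det_mul, Matrix.det_mul, Matrix.det_mul, Matrix.det_transpose]
  have h5 : 0 ≤ S.det * S.det := mul_self_nonneg _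
  nlinarith only [hdet, h5]

end

theorem stmtMat : StmtMat := by
  intro N A B k hA hB hk h
  rcases hk.eq_or_lt with rfl | hk
  · rcases Nat.eq_zero_or_pos N with rfl | hN
    · simp
    · rw [zero_pow (by omega)]
      exact (mul_pos hA.det_pos hB.det_pos).le
  have hBu : IsUnit B.det := hB.det_pos.ne'.isUnit
  have hP : (k ^ 2 • B⁻¹).PosDef := hB.inv.smul (by positivity)
  have hAP : (A - k ^ 2 • B⁻¹).PosSemidef := by
    rw [Matrix.posSemidef_iff_dotProduct_mulVec]
    refine ⟨hA.isHermitian.sub hP.isHermitian, fun η => ?_⟩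
    have h1 := h (-(k • (B⁻¹ *ᵥ η))) η
    have h2 : B *ᵥ (B⁻¹ *ᵥ η) = η := by
      rw [Matrix.mulVec_mulVec, Matrix.mul_nonsing_inv _ hBu, Matrix.one_mulVec]
    rw [star_trivial, Matrix.sub_mulVec, dotProduct_sub, Matrix.smul_mulVec, dotProduct_smul,
      smul_eq_mul, dotProduct_comm η (B⁻¹ *ᵥ η)]
    simp only [Matrix.mulVec_neg, Matrix.mulVec_smul, h2, neg_dotProduct, dotProduct_neg,
      smul_dotProduct, dotProduct_smul, smul_eq_mul] at h1
    nlinarith only [h1]
  have h3 := det_le_det hP hAP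
  rw [Matrix.det_smul, Fintype.card_fin, Matrix.det_nonsing_inv, Ring.inverse_eq_inv'] at h3
  have h4 := hB.det_pos
  have h5 : (k ^ 2) ^ N * (B.det)⁻¹ * B.det ≤ A.det * B.det :=
    mul_le_mul_of_nonneg_right h3 h4.le
  rw [mul_assoc, inv_mul_cancel₀ h4.ne', mul_one, ← pow_mul] at h5
  exact h5

end Vale.Agent.P248.NS.T7
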