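import Vale.Agent.P248.NS.Defs

/-!
P248, near-sharp general Mahler bound, block T9: the cone over a convex body and its dual
(helper575).
-/

open MeasureTheory Set Matrix Filter Topology

namespace Vale.Agent.P248.NS.T9

open Vale.Agent.P254.R304 (covF limDens cone)
open Vale.Agent.P254 (IsConvexBody)
open Vale.Agent.P248.NS

variable {n : ℕ}

lemma dot_cons (a : ℝ) (u : Fin n → ℝ) (w : Fin (n + 1) → ℝ) :
    (Fin.cons a u : Fin (n + 1) → ℝ) ⬝ᵥ w = a * w 0 + u ⬝ᵥ Fin.tail w := by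
  unfold dotProduct
  rw [Fin.sum_univ_succ]
  simp [Fin.tail]

lemma dot_eq (v w : Fin (n + 1) → ℝ) :
    v ⬝ᵥ w = v 0 * w 0 + Fin.tail v ⬝ᵥ Fin.tail w := by
  unfold dotProduct
  rw [Fin.sum_univ_succ]
  simp [Fin.tail]

lemma pos_cone {K : Set (Fin n → ℝ)} (hK : IsCompact K) :
    Pos (cone K) (Fin.cons 1 0) := by
  obtain ⟨a, ha, h⟩ := Vale.Agent.P254.R304.cone_decay hK
  refine ⟨a, ha, fun z hz => ?_⟩
  have h1 := h z hz
  rw [Vale.Agent.P254.R304.mc_dot] at h1
  rw [dot_cons]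
  simp
  linarith

lemma cc_cone {K : Set (Fin n → ℝ)} (hK : IsConvexBody K) : CC (cone K) where
  closed := Vale.Agent.P254.R304.isClosed_cone hK.2.1
  conv := Vale.Agent.P254.R304.convex_cone hK.1
  cone := by
    rintro z ⟨h0, y, hy, h⟩ t ht
    refine ⟨by simpa using mul_nonneg ht h0, y, hy, ?_⟩
    have : Fin.tail (t • z) = t • Fin.tail z := by
      ext i; simp [Fin.tail]
    rw [this, h, smul_smul]
    simp
  int := Vale.Agent.P254.R304.cone_interior hK.2.2
  pos := ⟨_, pos_cone hK.2.1⟩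

/-- members of the dual cone -/
lemma mem_dual {K : Set (Fin n → ℝ)} (w : Fin (n + 1) → ℝ) :
    w ∈ dual (cone K) ↔ ∀ x ∈ K, 0 ≤ w 0 + Fin.tail w ⬝ᵥ x := by
  constructor
  · intro h x hx
    have h1 := h (Fin.cons 1 x) ⟨by simp, x, hx, by simp⟩
    rw [dot_eq] at h1
    simpa [Fin.tail] using h1
  · rintro h z ⟨h0, y, hy, hz⟩
    rw [dot_eq, hz, dotProduct_smul]
    have h1 := mul_nonneg h0 (h y hy)
    simp only [smul_eq_mul]
    nlinarith

/-- the interior point gives a uniform lower bound on the dual cone -/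
lemma dual_low {K : Set (Fin n → ℝ)} {z : Fin n → ℝ} (hz : z ∈ interior K) :
    ∃ r : ℝ, 0 < r ∧ ∀ w ∈ dual (cone K),
      r * ∑ i, |Fin.tail w i| ≤ w 0 + z ⬝ᵥ Fin.tail w := by
  obtain ⟨r, hr, hb⟩ := Metric.mem_nhds_iff.1 (isOpen_interior.mem_nhds hz)
  refine ⟨r / 2, by positivity, fun w hw => ?_⟩
  rw [mem_dual] at hw
  set x : Fin n → ℝ := fun i => z i - r / 2 * SignType.sign (Fin.tail w i) with hx
  have hxK : x ∈ K := by
    apply interior_subset
    apply hb
    rw [Metric.mem_ball, dist_pi_lt_iff hr]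
    intro i
    rw [Real.dist_eq, hx]
    simp only
    have h1 : |((SignType.sign (Fin.tail w i) : SignType) : ℝ)| ≤ 1 := by
      rcases lt_trichotomy (Fin.tail w i) 0 with h | h | h
      · simp [h]
      · simp [h]
      · simp [h]
    have h2 : |z i - r / 2 * (SignType.sign (Fin.tail w i) : ℝ) - z i| =
        r / 2 * |((SignType.sign (Fin.tail w i) : SignType) : ℝ)| := by
      rw [sub_sub_cancel_left, abs_neg, abs_mul, abs_of_pos (by positivity : 0 < r / 2)]
    rw [h2]
    nlinarith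
  have h3 := hw x hxK
  have h4 : Fin.tail w ⬝ᵥ x = z ⬝ᵥ Fin.tail w - r / 2 * ∑ i, |Fin.tail w i| := by
    unfold dotProduct
    rw [Finset.mul_sum, ← Finset.sum_sub_distrib]
    refine Finset.sum_congr rfl fun i _ => ?_
    rw [hx]
    simp only
    have : (Fin.tail w i) * (SignType.sign (Fin.tail w i) : ℝ) = |Fin.tail w i| := by
      rw [self_mul_sign]
    rw [← this]
    ring
  rw [h4] at h3
  linarith

lemma pos_dual {K : Set (Fin n → ℝ)} {z : Fin n → ℝ} (hz : z ∈ interior K) :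
    Pos (dual (cone K)) (Fin.cons 1 z) := by
  obtain ⟨r, hr, h⟩ := dual_low hz
  refine ⟨r / (1 + r + ‖z‖), by positivity, fun w hw => ?_⟩
  have h1 := h w hw
  rw [dot_cons, one_mul]
  set S := ∑ i, |Fin.tail w i| with hS
  set T := w 0 + z ⬝ᵥ Fin.tail w with hT
  have hS0 : 0 ≤ S := Finset.sum_nonneg fun i _ => abs_nonneg _
  have hT0 : 0 ≤ T := (mul_nonneg hr.le hS0).trans h1
  have hzt : |z ⬝ᵥ Fin.tail w| ≤ ‖z‖ * S := by
    unfold dotProduct
    rw [hS, Finset.mul_sum]
    refine (Finset.abs_sum_le_sum_abs _ _).trans (Finset.sum_le_sum fun i _ => ?_)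
    rw [abs_mul]
    exact mul_le_mul_of_nonneg_right (norm_le_pi_norm z i) (abs_nonneg _)
  have hD : 0 < 1 + r + ‖z‖ := by positivity
  have hw0 : r * |w 0| ≤ (r + ‖z‖) * T := by
    have e : w 0 = T - z ⬝ᵥ Fin.tail w := by rw [hT]; ring
    have : |w 0| ≤ T + ‖z‖ * S := by
      rw [e]
      refine (abs_sub _ _).trans ?_
      rw [abs_of_nonneg hT0]
      linarith
    calc r * |w 0| ≤ r * (T + ‖z‖ * S) := by gcongr
      _ = r * T + ‖z‖ * (r * S) := by ring
      _ ≤ r * T + ‖z‖ * T := by gcongr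
      _ = (r + ‖z‖) * T := by ring
  have key : r * ‖w‖ ≤ (1 + r + ‖z‖) * T := by
    have h5 : ‖w‖ ≤ (1 + r + ‖z‖) * T / r := by
      rw [pi_norm_le_iff_of_nonneg (by positivity)]
      intro i
      rw [le_div_iff₀ hr, Real.norm_eq_abs]
      refine Fin.cases ?_ (fun j => ?_) i
      · nlinarith
      · have h6 : |w j.succ| ≤ S := by
          rw [hS]
          exact Finset.single_le_sum (f := fun i => |Fin.tail w i|)
            (fun i _ => abs_nonneg _) (Finset.mem_univ j)
        have h7 : 0 ≤ ‖z‖ := norm_nonneg z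
        nlinarith [mul_nonneg h7 hT0]
    rw [le_div_iff₀ hr] at h5
    linarith
  rw [div_mul_eq_mul_div, div_le_iff₀ hD]
  linarith

lemma Z_cone {K : Set (Fin n → ℝ)} (hK : IsCompact K) :
    Z (cone K) (Fin.cons 1 0) = (n.factorial : ℝ) * (volume K).toReal := by
  have hm : MeasurableSet (cone K) := (Vale.Agent.P254.R304.isClosed_cone hK).measurableSet
  rw [← Vale.Agent.P254.K468.mom0 hK,
    integral_congr_ae (Vale.Agent.P254.R304.coneF_ae (K := K))]
  unfold Z Vale.Agent.P254.R304.coneDens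
  rw [integral_indicator hm]
  refine setIntegral_congr_fun hm fun z _ => ?_
  show Real.exp (-((Fin.cons 1 0 : Fin (n + 1) → ℝ) ⬝ᵥ z)) = Real.exp (-z 0)
  rw [dot_cons]
  simp

/-! the shear -/

/-- the shear `(s, v) ↦ (s + z ⬝ᵥ v, v)` -/
noncomputable def shear (z : Fin n → ℝ) : (Fin (n + 1) → ℝ) →ₗ[ℝ] (Fin (n + 1) → ℝ) :=
  Matrix.toLin' (1 + replicateCol Unit (Pi.single 0 1 : Fin (n + 1) → ℝ) *
    replicateRow Unit (Fin.cons 0 z : Fin (n + 1) → ℝ))

lemma shear_apply (z : Fin n → ℝ) (w : Fin (n + 1) → ℝ) :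
    shear z w = Fin.cons (w 0 + z ⬝ᵥ Fin.tail w) (Fin.tail w) := by
  unfold shear
  rw [Matrix.toLin'_apply, Matrix.add_mulVec, Matrix.one_mulVec, ← Matrix.mulVec_mulVec]
  have h : replicateRow Unit (Fin.cons 0 z : Fin (n + 1) → ℝ) *ᵥ w =
      fun _ => z ⬝ᵥ Fin.tail w := by
    ext i
    show (Fin.cons 0 z : Fin (n + 1) → ℝ) ⬝ᵥ w = _
    rw [dot_cons]
    simp
  rw [h]
  ext i
  refine Fin.cases ?_ (fun j => ?_) i
  · simp [Matrix.mulVec, dotProduct]
  · simp [Matrix.mulVec, dotProduct, Fin.tail]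

lemma det_shear (z : Fin n → ℝ) : LinearMap.det (shear z) = 1 := by
  unfold shear
  rw [LinearMap.det_toLin', Matrix.det_one_add_replicateCol_mul_replicateRow]
  simp

lemma mp_shear (z : Fin n → ℝ) :
    MeasurePreserving (shear z) (volume : Measure (Fin (n + 1) → ℝ)) volume := by
  refine ⟨(LinearMap.continuous_of_finiteDimensional (shear z)).measurable, ?_⟩
  have h : LinearMap.det (shear z) ≠ 0 := by rw [det_shear]; exact one_ne_zero
  rw [Measure.map_linearMap_addHaar_eq_smul_addHaar volume h, det_shear]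
  simp

/-- reflected polar body -/
def refl (K : Set (Fin n → ℝ)) (z : Fin n → ℝ) : Set (Fin n → ℝ) :=
  {v | ∀ x ∈ K, -1 ≤ v ⬝ᵥ (x - z)}

lemma refl_low {K : Set (Fin n → ℝ)} {z : Fin n → ℝ} (hz : z ∈ interior K) :
    ∃ r : ℝ, 0 < r ∧ ∀ (v : Fin n → ℝ) (s : ℝ), (∀ x ∈ K, -s ≤ v ⬝ᵥ (x - z)) →
      r * ∑ i, |v i| ≤ s := by
  obtain ⟨r, hr, h⟩ := dual_low hz
  refine ⟨r, hr, fun v s hv => ?_⟩
  have h1 := h (Fin.cons (s - z ⬝ᵥ v) v) (by
    rw [mem_dual]
    intro x hx
    have h2 := hv x hx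
    rw [dotProduct_sub] at h2
    simp only [Fin.cons_zero, Fin.tail_cons]
    rw [dotProduct_comm z v]
    linarith)
  simp only [Fin.cons_zero, Fin.tail_cons] at h1
  linarith

lemma isCompact_refl {K : Set (Fin n → ℝ)} {z : Fin n → ℝ} (hz : z ∈ interior K) :
    IsCompact (refl K z) := by
  obtain ⟨r, hr, h⟩ := refl_low hz
  rw [Metric.isCompact_iff_isClosed_bounded]
  constructor
  · have : refl K z = ⋂ x ∈ K, {v | -1 ≤ v ⬝ᵥ (x - z)} := by
      ext v; simp [refl]
    rw [this]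
    refine isClosed_biInter fun x _ => ?_
    refine isClosed_le continuous_const ?_
    unfold dotProduct
    fun_prop
  · rw [Metric.isBounded_iff_subset_closedBall 0]
    refine ⟨1 / r, fun v hv => ?_⟩
    rw [mem_closedBall_zero_iff, pi_norm_le_iff_of_nonneg (by positivity)]
    intro i
    rw [le_div_iff₀ hr, Real.norm_eq_abs]
    have h1 := h v 1 hv
    have h2 : |v i| ≤ ∑ i, |v i| :=
      Finset.single_le_sum (f := fun i => |v i|) (fun i _ => abs_nonneg _) (Finset.mem_univ i)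
    nlinarith

lemma shear_preimage {K : Set (Fin n → ℝ)} {z : Fin n → ℝ} (hz : z ∈ interior K) :
    shear z ⁻¹' (cone (refl K z)) = dual (cone K) := by
  obtain ⟨r, hr, h⟩ := refl_low hz
  ext w
  rw [mem_preimage, mem_dual, shear_apply]
  constructor
  · rintro ⟨h0, v, hv, hw⟩ x hx
    simp only [Fin.cons_zero, Fin.tail_cons] at h0 hw
    have h1 := mul_le_mul_of_nonneg_left (hv x hx) h0
    have h2 : (w 0 + z ⬝ᵥ Fin.tail w) * (v ⬝ᵥ (x - z)) = Fin.tail w ⬝ᵥ (x - z) := by
      conv_rhs => rw [hw, smul_dotProduct]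
      rfl
    rw [h2, dotProduct_sub, dotProduct_comm (Fin.tail w) z] at h1
    linarith
  · intro hw
    have h0 : 0 ≤ w 0 + z ⬝ᵥ Fin.tail w := by
      rw [dotProduct_comm]; exact hw z (interior_subset hz)
    have h3 : ∀ x ∈ K, -(w 0 + z ⬝ᵥ Fin.tail w) ≤ Fin.tail w ⬝ᵥ (x - z) := by
      intro x hx
      have := hw x hx
      rw [dotProduct_sub, dotProduct_comm (Fin.tail w) z]
      linarith
    refine ⟨by simpa using h0, ?_⟩
    simp only [Fin.cons_zero, Fin.tail_cons]
    rcases h0.eq_or_lt with h1 | h1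
    · refine ⟨0, fun x _ => by simp, ?_⟩
      have h4 := h (Fin.tail w) _ h3
      rw [← h1] at h4
      have h5 : ∑ i, |Fin.tail w i| = 0 := by
        refine le_antisymm ?_ (Finset.sum_nonneg fun i _ => abs_nonneg _)
        by_contra hc
        push Not at hc
        have := mul_pos hr hc
        linarith
      ext i
      have h6 := (Finset.sum_eq_zero_iff_of_nonneg (fun i _ => abs_nonneg _)).1 h5 i
        (Finset.mem_univ i)
      simpa using h6
    · refine ⟨(w 0 + z ⬝ᵥ Fin.tail w)⁻¹ • Fin.tail w, fun x hx => ?_, ?_⟩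
      · rw [smul_dotProduct, smul_eq_mul]
        have h4 := h3 x hx
        rw [← div_eq_inv_mul, le_div_iff₀ h1]
        linarith
      · rw [smul_smul, mul_inv_cancel₀ h1.ne', one_smul]

lemma volume_refl {K : Set (Fin n → ℝ)} {z : Fin n → ℝ} :
    volume (refl K z) = volume (polarP K z) := by
  have : refl K z = (fun v => -v) ⁻¹' (polarP K z) := by
    ext v
    simp only [refl, polarP, mem_preimage, mem_ofPred_eq, neg_dotProduct]
    refine forall₂_congr fun x _ => ?_
    constructor <;> intro h <;> linarith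
  rw [this]
  exact Measure.measure_preimage_neg _ _

lemma Z_dual {K : Set (Fin n → ℝ)} {z : Fin n → ℝ} (hz : z ∈ interior K) :
    Z (dual (cone K)) (Fin.cons 1 z) = (n.factorial : ℝ) * (volume (polarP K z)).toReal := by
  have hc := isCompact_refl hz
  have hm : MeasurableSet (cone (refl K z)) :=
    (Vale.Agent.P254.R304.isClosed_cone hc).measurableSet
  have hm' : MeasurableSet (dual (cone K)) := by
    rw [← shear_preimage hz]
    exact (mp_shear z).measurable hm
  rw [← volume_refl, ← Z_cone hc]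
  unfold Z
  rw [← integral_indicator hm, ← integral_indicator hm']
  have h1 : (cone (refl K z)).indicator
      (fun w => Real.exp (-((Fin.cons 1 0 : Fin (n + 1) → ℝ) ⬝ᵥ w))) ∘ (shear z) =
      (dual (cone K)).indicator
        (fun w => Real.exp (-((Fin.cons 1 z : Fin (n + 1) → ℝ) ⬝ᵥ w))) := by
    rw [← shear_preimage hz]
    ext w
    by_cases hw : shear z w ∈ cone (refl K z)
    · rw [Function.comp_apply, indicator_of_mem hw, indicator_of_mem (mem_preimage.2 hw),
        dot_cons, dot_cons, shear_apply]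
      simp
    · rw [Function.comp_apply, indicator_of_notMem hw,
        indicator_of_notMem (fun h => hw (mem_preimage.1 h))]
  have hmeas : Measurable ((cone (refl K z)).indicator
      (fun w => Real.exp (-((Fin.cons 1 0 : Fin (n + 1) → ℝ) ⬝ᵥ w)))) := by
    refine Measurable.indicator ?_ hm
    unfold dotProduct
    fun_prop
  rw [← h1]
  have h2 := integral_map (μ := (volume : Measure (Fin (n + 1) → ℝ)))
    (mp_shear z).measurable.aemeasurable
    (f := (cone (refl K z)).indicator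
      (fun w => Real.exp (-((Fin.cons 1 0 : Fin (n + 1) → ℝ) ⬝ᵥ w))))
    hmeas.aestronglyMeasurable
  rw [(mp_shear z).map_eq] at h2
  exact h2.symm

theorem stmtCone : StmtCone := fun _ _ hK _ hz =>
  ⟨cc_cone hK, pos_cone hK.2.1, pos_dual hz, Z_cone hK.2.1, Z_dual hz⟩

end Vale.Agent.P248.NS.T9
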