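import Vale.Agent.P248.NS.Asm541
import Vale.Agent.P248.NS.T2b618
import Vale.Agent.P248.NS.Cone575
import Vale.Agent.P248.NS.T10

/-!
P248, near-sharp bound for the volume product of all convex bodies, from the entropy inequality with
loss `δ` (helper541).
-/

open MeasureTheory Set

namespace Vale.Agent.P248.NS.Top541

theorem stmtMain : StmtMain := Asm541.stmtMain_of T2b618.stmtLoss

theorem volumeProduct_ge {δ : ℝ} {n : ℕ} (hN : Vale.Agent.P254.X.Loss.NiceDDL δ (n + 1))
    {K : Set (EuclideanSpace ℝ (Fin n))} (hK : Vale.Agent.P248.IsConvexBody K) :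
    ENNReal.ofReal (Real.exp (-(2 * δ * ((n : ℝ) + 1))) *
      (((n : ℝ) + 1) ^ (n + 1) / (n.factorial : ℝ) ^ 2)) ≤ Vale.Agent.P248.volumeProduct K :=
  T10.volumeProduct_ge (fun _ hK _ hz => T10.body_of stmtMain Cone575.stmtCone hN hK hz) hK

end Vale.Agent.P248.NS.Top541
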